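import Vale.Agent.P218N.H.Chart
import Mathlib.Geometry.Manifold.PartitionOfUnity
import Mathlib.Analysis.Calculus.LineDeriv.IntegrationByParts

/-! Finiteness of the area, the divergence theorem and the first variation formula on a surface. -/

open MeasureTheory Set Filter Topology Metric
open scoped NNReal RealInnerProductSpace ContDiff Manifold

namespace Vale.Agent.P218N.H

open Vale.Agent.P218.H313
open Vale.Agent.P218.H552 (MC)
open Vale.Agent.P218GA (cH cH_pos cH_pos')

set_option linter.unusedSectionVars false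
set_option linter.unusedVariables false

/-- finite smooth partitions of unity near a compact set -/
theorem exists_pou {X : Type*} [NormedAddCommGroup X] [NormedSpace ℝ X] [FiniteDimensional ℝ X]
    {K : Set X} (hK : IsCompact K) {ι : Type*} [Fintype ι] {U : ι → Set X}
    (hU : ∀ i, IsOpen (U i)) (hKU : K ⊆ ⋃ i, U i) :
    ∃ χ : ι → X → ℝ, (∀ i, ContDiff ℝ ∞ (χ i)) ∧ (∀ i, HasCompactSupport (χ i)) ∧
      (∀ i, tsupport (χ i) ⊆ U i) ∧ (∀ i x, 0 ≤ χ i x) ∧ (∀ x, ∑ i, χ i x ≤ 1) ∧
      ∀ x ∈ K, ∀ᶠ y in 𝓝 x, ∑ i, χ i y = 1 := by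
  have := FiniteDimensional.proper_real X
  obtain ⟨K', h1, h2, h3⟩ := exists_compact_between hK (isOpen_iUnion hU) hKU
  obtain ⟨R, hR⟩ := h1.isBounded.subset_ball (0 : X)
  obtain ⟨ρ, hρ⟩ := SmoothPartitionOfUnity.exists_isSubordinate 𝓘(ℝ, X) h1.isClosed
    (fun i => U i ∩ ball 0 R) (fun i => (hU i).inter isOpen_ball) (fun x hx => by
      obtain ⟨i, hi⟩ := mem_iUnion.1 (h3 hx)
      exact mem_iUnion.2 ⟨i, hi, hR hx⟩)
  refine ⟨fun i => ρ i, fun i => (ρ i).contMDiff.contDiff, fun i => ?_,
    fun i => (hρ i).trans inter_subset_left, fun i x => ρ.nonneg i x, fun x => ?_, fun x hx => ?_⟩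
  · exact (isCompact_closedBall (0 : X) R).of_isClosed_subset (isClosed_tsupport _)
      (((hρ i).trans inter_subset_right).trans ball_subset_closedBall)
  · have := ρ.sum_le_one x
    rwa [finsum_eq_sum_of_fintype] at this
  · filter_upwards [mem_interior_iff_mem_nhds.1 (h2 hx)] with y hy
    have := ρ.sum_eq_one hy
    rwa [finsum_eq_sum_of_fintype] at this

variable {m : ℕ}

/-- the integral of a divergence over `ℝ^m` vanishes -/
theorem integral_tr_fderiv {V : Em m → Em m} (hV : ContDiff ℝ 1 V) (hc : HasCompactSupport V) :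
    ∫ y, tr (fderiv ℝ V y) = 0 := by
  set b := stdOrthonormalBasis ℝ (Em m)
  have h1 : ∀ i y, HasFDerivAt (fun z => ⟪b i, V z⟫) ((innerSL ℝ (b i)).comp (fderiv ℝ V y)) y :=
    fun i y => (innerSL ℝ (b i)).hasFDerivAt.comp y (hV.differentiable (by simp) y).hasFDerivAt
  have h2 : ∀ i, Integrable (fun y => ⟪b i, fderiv ℝ V y (b i)⟫) := fun i => by
    refine Continuous.integrable_of_hasCompactSupport
      (continuous_const.inner ((hV.continuous_fderiv (by simp)).clm_apply continuous_const)) ?_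
    exact (hc.fderiv ℝ).mono' fun y hy => subset_tsupport _ fun h0 => hy (by simp [h0])
  simp only [tr_eq_sum]
  rw [integral_finsetSum _ fun i _ => h2 i]
  refine Finset.sum_eq_zero fun i _ => ?_
  have h3 : Integrable (fun y => ⟪b i, V y⟫) :=
    Continuous.integrable_of_hasCompactSupport (continuous_const.inner hV.continuous)
      (hc.mono' fun y hy => subset_tsupport _ fun h0 => hy (by simp [h0]))
  have h4 := integral_mul_fderiv_eq_neg_fderiv_mul_of_integrable (μ := volume)
    (f := fun _ : Em m => (1 : ℝ)) (g := fun z => ⟪b i, V z⟫) (v := b i) (by simp)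
    (by simp only [(h1 i _).fderiv, one_mul]; exact h2 i) (by simpa using h3)
    (fun _ _ => differentiableAt_const _) (fun y _ => (h1 i y).differentiableAt)
  simp only [(h1 i _).fderiv, one_mul, fderiv_fun_const, Pi.zero_apply, zero_apply, zero_mul,
    integral_zero, neg_zero] at h4
  exact h4

variable {E : Type*} [NormedAddCommGroup E] [InnerProductSpace ℝ E] [FiniteDimensional ℝ E]
variable {M : Set E} {f : Frame m E} {p : E} {r h : ℝ} {u : Em m → ℝ}

/-- the tangential divergence of a tangent field in a graph chart -/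
theorem GChart.div_tangent (c : GChart M f p r h u) {Y : E → E} {y : Em m} (hy : ‖y‖ < r)
    (hY : DifferentiableAt ℝ Y (f.gr p u y))
    (ht : ∀ᶠ z in 𝓝 y, ⟪f.n - f.ι (grad u z), Y (f.gr p u z)⟫ = 0) :
    √(1 + ‖grad u y‖ ^ 2) * divM M Y (f.gr p u y)
      = tr (fderiv ℝ (fun z => √(1 + ‖grad u z‖ ^ 2) • f.π (Y (f.gr p u z))) y) := by
  set W : Em m → ℝ := fun z => √(1 + ‖grad u z‖ ^ 2) with hW
  set a : Em m → Em m := fun z => f.π (Y (f.gr p u z)) with ha
  set D := fderiv ℝ (grad u) y with hD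
  set N := f.n - f.ι (grad u y) with hN
  set P := PT M (f.gr p u y) with hP
  have hW0 : 0 < W y := by simp only [hW]; positivity
  have hWW : W y * W y = 1 + ‖grad u y‖ ^ 2 := Real.mul_self_sqrt (by positivity)
  have hPv : ∀ v, P v = v - ((W y)⁻¹ * (W y)⁻¹ * ⟪N, v⟫) • N := fun v => by
    rw [hP, c.PT_gr hy, perp_apply, real_inner_smul_left, smul_smul]
    congr 2; ring
  have hNN : ⟪N, N⟫ = W y * W y := by rw [real_inner_self_eq_norm_sq, hN, f.norm_N_sq, hWW]
  have hNP : ∀ v, ⟪N, P v⟫ = 0 := fun v => by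
    rw [hPv, inner_sub_right, real_inner_smul_right, hNN]; field_simp; ring
  have hNd : ∀ v, ⟪N, f.dgr u y v⟫ = 0 := fun v => by
    rw [f.dgr_apply, hN, inner_add_right, real_inner_smul_right, inner_sub_left, inner_sub_left,
      f.inner_n_ι, f.inner_ι, f.inner_nn, f.inner_ι_n]; ring
  have hg : HasFDerivAt (grad u) D y :=
    ((contDiff_grad_top c.smooth).differentiable (by simp) y).hasFDerivAt
  have hG : HasFDerivAt (fun z => Y (f.gr p u z)) ((fderiv ℝ Y (f.gr p u y)).comp (f.dgr u y)) y :=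
    hY.hasFDerivAt.comp y (f.hasFDerivAt_gr p (c.diff y))
  set DG := (fderiv ℝ Y (f.gr p u y)).comp (f.dgr u y) with hDG
  have hA : HasFDerivAt a (f.π.comp DG) y := f.π.hasFDerivAt.comp y hG
  -- the derivative of the tangency relation
  have h1 : ∀ v, ⟪N, DG v⟫ = ⟪D v, a y⟫ := fun v => by
    have h2 : HasFDerivAt (fun z => f.n - f.ι (grad u z)) (-(f.ι.comp D)) y :=
      (f.ι.hasFDerivAt.comp y hg).const_sub f.n
    have h3 := (h2.inner ℝ hG).unique ((hasFDerivAt_const (0 : ℝ) y).congr_of_eventuallyEq ht)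
    have h4 := congrArg (fun L : Em m →L[ℝ] ℝ => L v) h3
    simp only [ContinuousLinearMap.comp_apply, ContinuousLinearMap.prod_apply, fderivInnerCLM_apply,
      zero_apply, neg_apply, inner_neg_left, f.adj] at h4
    linarith
  -- reduction of the trace to the parameter space
  have h5 : P = (f.dgr u y).comp (f.π.comp P) := by
    ext1 v
    have h6 := hNP v
    rw [hN, inner_sub_left, f.adj, sub_eq_zero] at h6
    rw [ContinuousLinearMap.comp_apply, ContinuousLinearMap.comp_apply, f.dgr_apply, ← h6,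
      ← f.decomp]
  have h7 : divM M Y (f.gr p u y) = tr ((f.π.comp P).comp DG) := by
    rw [divM, ← hP, tr_comm, ← Frame.tr_comm', hDG, ContinuousLinearMap.comp_assoc, ← h5]
  have h8 : (f.π.comp P).comp DG = f.π.comp DG
      + ((W y)⁻¹ * (W y)⁻¹) • ((innerSL ℝ (D (a y))).smulRight (grad u y)) := by
    ext1 v
    simp only [ContinuousLinearMap.comp_apply, add_apply, smul_apply,
      ContinuousLinearMap.smulRight_apply, innerSL_apply_apply]
    rw [hPv, map_sub, map_smul, h1, hN, map_sub, f.π_n, f.π_ι, zero_sub, smul_neg, sub_neg_eq_add,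
      smul_smul, hD, hess_symm (contDiff_two c.smooth), real_inner_comm]
  have h9 : HasFDerivAt W ((W y)⁻¹ • (innerSL ℝ (grad u y)).comp D) y := by
    have h10 := (hg.norm_sq.const_add 1).sqrt (by positivity)
    refine h10.congr_fderiv ?_
    ext v
    simp only [smul_apply, ContinuousLinearMap.comp_apply, smul_eq_mul, hW, nsmul_eq_mul,
      Nat.cast_ofNat]
    field_simp
  have h11 : ∀ (l : Em m →L[ℝ] ℝ) (v : Em m), tr (l.smulRight v) = l v := fun l v => by
    have := tr_comp_smulRight (ContinuousLinearMap.id ℝ (Em m)) l v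
    rwa [ContinuousLinearMap.id_comp] at this
  have h12 : HasFDerivAt (fun z => W z • a z) (W y • f.π.comp DG
      + ((W y)⁻¹ • (innerSL ℝ (grad u y)).comp D).smulRight (a y)) y := h9.smul hA
  change W y * _ = tr (fderiv ℝ (fun z => W z • a z) y)
  rw [h12.fderiv, h7, h8, tr_add, tr_add, tr_smul, tr_smul, h11, h11]
  simp only [smul_apply, ContinuousLinearMap.comp_apply, innerSL_apply_apply, smul_eq_mul]
  rw [real_inner_comm (D (a y))]
  field_simp

/-- splitting off the normal part of a vector field -/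
lemma LocDef.divM_PW {U : Set E} {w : E → ℝ} (hw : LocDef M U w) {x : E} (hx : x ∈ U) (hM : x ∈ M)
    {X : E → E} (hX : DifferentiableAt ℝ X x) :
    divM M (fun z => PW w z (X z)) x = divM M X x + ⟪X x, Hv M x⟫ := by
  have hν := (contDiffAt_nuW hw.smooth (hw.ne x hx)).differentiableAt (by simp)
  have h1 : DifferentiableAt ℝ (fun z => -⟪nuW w z, X z⟫) x := (hν.inner ℝ hX).neg
  have h2 : (fun z => PW w z (X z)) = fun z => X z + (-⟪nuW w z, X z⟫) • nuW w z := by
    ext1 z; rw [PW, perp_apply, neg_smul, sub_eq_add_neg]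
  have h3 : divM M (fun z => (-⟪nuW w z, X z⟫) • nuW w z) x = ⟪X x, Hv M x⟫ := by
    rw [hw.divM_eq hx hM, (h1.hasFDerivAt.fun_smul hν.hasFDerivAt).fderiv,
      ContinuousLinearMap.comp_add, ContinuousLinearMap.comp_smul, tr_add, tr_smul,
      tr_comp_smulRight, PW, perp_self (hw.norm_nuW hx), map_zero, add_zero, ← PW,
      ← tr_AW hw.smooth (hw.ne x hx), hw.Hv_eq hx hM, real_inner_smul_right, real_inner_comm]
    ring
  rw [h2, Surf.divM_add M hX (h1.fun_smul hν), h3]

variable [MeasurableSpace E] [BorelSpace E]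

lemma divM_eq_zero {X : E → E} {x : E} (hx : x ∉ tsupport X) : divM M X x = 0 := by
  rw [divM, (notMem_tsupport_iff_eventuallyEq.1 hx).fderiv_eq]
  simp [tr]

/-- the divergence theorem in one chart -/
theorem GChart.integral_div (c : GChart M f p r h u) (hM : Surf M) {X : E → E}
    (hX : ContDiff ℝ 1 X) (hK : IsCompact (tsupport X ∩ M))
    (hs : tsupport X ∩ M ⊆ f.cyl p r h) :
    ∫ x in M, (divM M X x + ⟪X x, Hv M x⟫) ∂μH[m] = 0 := by
  have hu1 := contDiff_one' c.smooth
  rw [setIntegral_eq_of_subset_of_forall_sdiff_eq_zero (s := M ∩ f.cyl p r h) hM.measurableSet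
    inter_subset_left ?_, ← c.image, integral_gr hu1 measurableSet_ball]
  swap
  · rintro x ⟨h1, h2⟩
    have h3 : x ∉ tsupport X := fun h4 => h2 ⟨h1, hs ⟨h4, h1⟩⟩
    rw [divM_eq_zero h3, image_eq_zero_of_notMem_tsupport h3, inner_zero_left, add_zero]
  set w := f.gw p u with hw
  have hne : ∀ x, grad w x ≠ 0 := fun x => by rw [hw, f.grad_gw p (c.diff _)]; exact f.N_ne _
  set Y : E → E := fun z => PW w z (X z) with hY
  have hYs : ContDiff ℝ 1 Y := contDiff_iff_contDiffAt.2 fun z =>
    ((contDiffAt_PW c.locDef.smooth (hne z)).of_le (by exact_mod_cast le_top)).clm_apply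
      hX.contDiffAt
  set V : Em m → Em m := fun z => √(1 + ‖grad u z‖ ^ 2) • f.π (Y (f.gr p u z)) with hV
  have hVs : ContDiff ℝ 1 V := by
    refine ContDiff.smul (ContDiff.sqrt (contDiff_const.add ?_) fun z => by positivity)
      (f.π.contDiff.comp (hYs.comp (f.contDiff_gr p hu1)))
    exact (contDiff_one' (contDiff_grad_top c.smooth)).norm_sq ℝ
  set K' : Set (Em m) := (fun x => f.π (x - p)) '' (tsupport X ∩ M) with hK'
  have hK'c : IsCompact K' := hK.image (by fun_prop)
  have hK'b : K' ⊆ ball 0 r := by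
    rintro _ ⟨x, hx, rfl⟩; exact mem_ball_zero_iff.2 (hs hx).1
  have hV0 : ∀ z ∈ ball (0 : Em m) r, z ∉ K' → V z = 0 := fun z hz hz' => by
    have h1 : f.gr p u z ∉ tsupport X := fun h2 =>
      hz' ⟨_, ⟨h2, c.gr_mem (mem_ball_zero_iff.1 hz)⟩, f.π_gr p u z⟩
    simp only [hV, hY, image_eq_zero_of_notMem_tsupport h1, map_zero, smul_zero]
  set V' : Em m → Em m := indicator (ball 0 r) V with hV'
  have hV'1 : ∀ z ∈ ball (0 : Em m) r, V' =ᶠ[𝓝 z] V := fun z hz => by
    filter_upwards [isOpen_ball.mem_nhds hz] with y hy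
    exact indicator_of_mem hy V
  have hV'0 : ∀ z, z ∉ K' → V' z = 0 := fun z hz => by
    by_cases h1 : z ∈ ball (0 : Em m) r
    · rw [(hV'1 z h1).self_of_nhds, hV0 z h1 hz]
    · exact indicator_of_notMem h1 V
  have hV'2 : ∀ z, z ∉ K' → V' =ᶠ[𝓝 z] fun _ => 0 := fun z hz => by
    filter_upwards [hK'c.isClosed.isOpen_compl.mem_nhds hz] with y hy
    exact hV'0 y hy
  have hV's : ContDiff ℝ 1 V' := contDiff_iff_contDiffAt.2 fun z => by
    by_cases h1 : z ∈ K'
    · exact hVs.contDiffAt.congr_of_eventuallyEq (hV'1 z (hK'b h1))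
    · exact contDiffAt_const.congr_of_eventuallyEq (hV'2 z h1)
  have h1 := integral_tr_fderiv hV's (HasCompactSupport.intro hK'c hV'0)
  rw [← setIntegral_eq_integral_of_forall_compl_eq_zero (s := ball 0 r) fun z hz => by
    rw [(hV'2 z fun h2 => hz (hK'b h2)).fderiv_eq]; simp [tr]] at h1
  rw [← mul_zero (cH m : ℝ), ← h1, ← integral_const_mul]
  refine setIntegral_congr_fun measurableSet_ball fun y hy => ?_
  have hy' := mem_ball_zero_iff.1 hy
  have h2 := c.div_tangent hy' (hYs.differentiable (by simp) _) (Eventually.of_forall fun z => by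
    rw [← c.grad_gw_gr]; exact inner_grad_PW (hne _) _)
  simp only [(hV'1 y hy).fderiv_eq, hV, ← h2, gJ, smul_eq_mul, mul_assoc]
  rw [hY, c.locDef.divM_PW (c.gr_mem_cyl hy') (c.gr_mem hy') (hX.differentiable (by simp) _)]

namespace Surf

/-- compact parts of a surface have finite area -/
theorem measure_lt_top (hE : Module.finrank ℝ E = m + 1) (hM : Surf M) {K : Set E}
    (hK : IsCompact K) (hKM : K ⊆ M) : (μH[m] : Measure E) K < ⊤ := by
  refine hK.induction_on (p := fun s => (μH[m] : Measure E) s < ⊤) (by simp)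
    (fun s t hst ht => (measure_mono hst).trans_lt ht)
    (fun s t hs ht => measure_union_lt_top hs ht) fun x hx => ?_
  obtain ⟨f, u, r, h, -, c, -, -, -⟩ := hM.exists_tchart hE (hKM hx) univ_mem
  refine ⟨M ∩ f.cyl x r h, inter_mem (mem_of_superset self_mem_nhdsWithin hKM)
    (mem_nhdsWithin_of_mem_nhds ((f.isOpen_cyl x r h).mem_nhds
      (f.self_mem_cyl x c.r_pos c.h_pos))), ?_⟩
  have hu := contDiff_one' c.smooth
  rw [← c.image, measure_gr hu measurableSet_ball]
  exact (((continuous_gJ hu).continuousOn.integrableOn_compact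
    (isCompact_closedBall (0 : Em m) r)).mono_set ball_subset_closedBall).lintegral_lt_top

theorem finiteOnCompacts (hE : Module.finrank ℝ E = m + 1) (hM : Surf M) (hc : IsClosed M) :
    IsFiniteMeasureOnCompacts ((μH[m] : Measure E).restrict M) :=
  ⟨fun K hK => by
    rw [Measure.restrict_apply hK.measurableSet]
    exact hM.measure_lt_top hE (hK.inter_right hc) inter_subset_right⟩

theorem locallyFinite (hE : Module.finrank ℝ E = m + 1) (hM : Surf M) (hc : IsClosed M) :
    IsLocallyFiniteMeasure ((μH[m] : Measure E).restrict M) := by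
  have := hM.finiteOnCompacts hE hc
  infer_instance

theorem finite (hE : Module.finrank ℝ E = m + 1) (hM : Surf M) (hc : IsCompact M) :
    IsFiniteMeasure ((μH[m] : Measure E).restrict M) :=
  ⟨by rw [Measure.restrict_apply_univ]; exact hM.measure_lt_top hE hc subset_rfl⟩

theorem integrableOn_compact {F : Type*} [NormedAddCommGroup F] (hE : Module.finrank ℝ E = m + 1)
    (hM : Surf M) {g : E → F} {K : Set E} (hK : IsCompact K) (hKM : K ⊆ M)
    (hg : ContinuousOn g K) : IntegrableOn g K (μH[m] : Measure E) := by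
  obtain ⟨C, hC⟩ := hK.exists_bound_of_continuousOn hg
  exact IntegrableOn.of_bound (hM.measure_lt_top hE hK hKM)
    (hg.aestronglyMeasurable hK.measurableSet) C ((ae_restrict_mem hK.measurableSet).mono hC)

/-- continuous functions with compact support in `M` are integrable -/
theorem integrableOn {F : Type*} [NormedAddCommGroup F] (hE : Module.finrank ℝ E = m + 1)
    (hM : Surf M) {g : E → F} {K : Set E} (hK : IsCompact K) (hKM : K ⊆ M)
    (hg : ContinuousOn g K) (h0 : ∀ x ∈ M, x ∉ K → g x = 0) :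
    IntegrableOn g M (μH[m] : Measure E) :=
  (hM.integrableOn_compact hE hK hKM hg).of_forall_sdiff_eq_zero hM.measurableSet
    fun x hx => h0 x hx.1 hx.2

lemma continuousOn_divM' (hM : Surf M) {X : E → E} {K : Set E} (hKM : K ⊆ M)
    (hX : ∀ x ∈ K, ContDiffAt ℝ 1 X x) : ContinuousOn (divM M X) K :=
  continuousOn_tr ((hM.continuousOn_PT.mono hKM).clm_comp fun x hx =>
    ((hX x hx).fderiv_right (m := 0) (by simp)).continuousAt.continuousWithinAt)

lemma divM_eq_zero' (hM : Surf M) {X : E → E} {K : Set E} (hK : IsClosed K) {x : E} (hx : x ∈ M)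
    (hxK : x ∉ K) (hX : DifferentiableAt ℝ X x) (h0 : ∀ x ∈ M, x ∉ K → X x = 0) :
    divM M X x = 0 := by
  rw [hM.divM_congr hx hX (differentiableAt_const (0 : E))]
  · simp [divM, tr]
  · filter_upwards [self_mem_nhdsWithin, mem_nhdsWithin_of_mem_nhds (hK.isOpen_compl.mem_nhds hxK)]
      with y hy hy'
    exact h0 y hy hy'

/-- **The divergence theorem**: `X` is `C¹` near every point of `M` and vanishes on `M` outside a
compact subset. -/
theorem integral_div (hE : Module.finrank ℝ E = m + 1) (hM : Surf M) {X : E → E}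
    (hX : ∀ x ∈ M, ContDiffAt ℝ 1 X x) {K : Set E} (hK : IsCompact K) (hKM : K ⊆ M)
    (h0 : ∀ x ∈ M, x ∉ K → X x = 0) :
    ∫ x in M, (divM M X x + ⟪X x, Hv M x⟫) ∂μH[m] = 0 := by
  have h1 : ∀ p : K, ∃ (f : Frame m E) (u : Em m → ℝ) (r h : ℝ), GChart M f p r h u ∧
      ∀ y ∈ f.cyl p r h, ContDiffAt ℝ 1 X y := fun p => by
    obtain ⟨f, u, r, h, -, c, -, -, h2⟩ := hM.exists_tchart hE (hKM p.2)
      ((hX p (hKM p.2)).eventually (by simp))
    exact ⟨f, u, r, h, c, h2⟩
  choose f u r h c hc using h1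
  obtain ⟨t, ht⟩ := hK.elim_finite_subcover (fun p : K => (f p).cyl p (r p) (h p))
    (fun p => (f p).isOpen_cyl _ _ _) fun x hx =>
      mem_iUnion.2 ⟨⟨x, hx⟩, (f _).self_mem_cyl _ (c _).r_pos (c _).h_pos⟩
  obtain ⟨χ, h1, h2, h3, -, -, h4⟩ := exists_pou hK (ι := t)
    (U := fun p => (f p.1).cyl p.1 (r p.1) (h p.1)) (fun p => (f p.1).isOpen_cyl _ _ _)
    (fun x hx => by
      obtain ⟨p, hp, h1⟩ := mem_iUnion₂.1 (ht hx)
      exact mem_iUnion.2 ⟨⟨p, hp⟩, h1⟩)
  set Y : t → E → E := fun i y => χ i y • X y with hY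
  have hYs : ∀ i, ContDiff ℝ 1 (Y i) := fun i =>
    contDiff_cut_smul (contDiff_one' (h1 i)) fun y hy => hc i y (h3 i hy)
  have hYt : ∀ i, tsupport (Y i) ⊆ tsupport (χ i) := fun i => tsupport_smul_subset_left _ _
  have hYK : ∀ i, IsCompact (tsupport (Y i) ∩ M) := fun i => by
    have : tsupport (Y i) ∩ M = tsupport (Y i) ∩ {x | (f i.1).gw i.1 (u i.1) x = 0} := by
      ext x
      exact and_congr_right fun hx => (c i.1).mem_iff x (h3 i (hYt i hx))
    rw [this]
    exact ((h2 i).of_isClosed_subset (isClosed_tsupport _) (hYt i)).inter_right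
      (isClosed_eq (c i.1).locDef.smooth.continuous continuous_const)
  have hY0 : ∀ i, ∀ x ∈ M, x ∉ K → Y i x = 0 := fun i x hx hx' => by simp [hY, h0 x hx hx']
  have hI : ∀ i, IntegrableOn (fun x => divM M (Y i) x + ⟪Y i x, Hv M x⟫) M (μH[m] : Measure E) :=
    fun i => hM.integrableOn hE hK hKM
      (((hM.continuousOn_divM (hYs i)).add
        ((hYs i).continuous.continuousOn.inner (𝕜 := ℝ) hM.continuousOn_Hv)).mono hKM)
      fun x hx hx' => by
        rw [hM.divM_eq_zero' hK.isClosed hx hx' ((hYs i).differentiable (by simp) x) (hY0 i),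
          hY0 i x hx hx', inner_zero_left, add_zero]
  have h5 : ∀ x ∈ M, divM M X x + ⟪X x, Hv M x⟫
      = ∑ i, (divM M (Y i) x + ⟪Y i x, Hv M x⟫) := fun x hx => by
    by_cases hxK : x ∈ K
    · have h6 : X =ᶠ[𝓝 x] fun y => ∑ i, Y i y := by
        filter_upwards [h4 x hxK] with y hy
        rw [hY, ← Finset.sum_smul, hy, one_smul]
      have h7 : X x = ∑ i, Y i x := h6.self_of_nhds
      rw [Finset.sum_add_distrib, ← sum_inner, ← h7, divM, h6.fderiv_eq,
        fderiv_fun_sum fun i _ => (hYs i).differentiable (by simp) x,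
        ContinuousLinearMap.comp_finsetSum, ← trL_apply, map_sum]
      rfl
    · rw [hM.divM_eq_zero' hK.isClosed hx hxK ((hX x hx).differentiableAt (by simp)) h0,
        h0 x hx hxK, inner_zero_left, add_zero]
      refine (Finset.sum_eq_zero fun i _ => ?_).symm
      rw [hM.divM_eq_zero' hK.isClosed hx hxK ((hYs i).differentiable (by simp) x) (hY0 i),
        hY0 i x hx hxK, inner_zero_left, add_zero]
  rw [setIntegral_congr_fun hM.measurableSet h5, integral_finsetSum _ fun i _ => hI i]
  exact Finset.sum_eq_zero fun i _ => (c i.1).integral_div hM (hYs i) (hYK i)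
    fun x hx => h3 i (hYt i hx.1)

/-- **First variation formula.** -/
theorem first_variation (hE : Module.finrank ℝ E = m + 1) (hM : Surf M) {X : E → E}
    (hX : ∀ x ∈ M, ContDiffAt ℝ 1 X x) {K : Set E} (hK : IsCompact K) (hKM : K ⊆ M)
    (h0 : ∀ x ∈ M, x ∉ K → X x = 0) :
    ∫ x in M, divM M X x ∂μH[m] = - ∫ x in M, ⟪X x, Hv M x⟫ ∂μH[m] := by
  have h1 := hM.integral_div hE hX hK hKM h0
  rw [integral_add] at h1
  · linarith
  · exact hM.integrableOn hE hK hKM (hM.continuousOn_divM' hKM fun x hx => hX x (hKM hx))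
      fun x hx hx' => hM.divM_eq_zero' hK.isClosed hx hx' ((hX x hx).differentiableAt (by simp)) h0
  · exact hM.integrableOn hE hK hKM (ContinuousOn.inner (𝕜 := ℝ)
      (fun x hx => (hX x (hKM hx)).continuousAt.continuousWithinAt) (hM.continuousOn_Hv.mono hKM))
      fun x hx hx' => by rw [h0 x hx hx', inner_zero_left]

/-- a closed surface has the mean curvature `Hv` in the weak sense -/
theorem mc (hE : Module.finrank ℝ E = m + 1) (hM : Surf M) (hc : IsClosed M) :
    MC m ((μH[m] : Measure E).restrict M) (tanP M) (Hv M) where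
  fin := hM.finiteOnCompacts hE hc
  Tmeas := (hM.continuousOn_PT.aestronglyMeasurable hM.measurableSet).congr
    ((ae_restrict_mem hM.measurableSet).mono fun x hx => (hM.proj_tanP hx).symm)
  dim := (ae_restrict_mem hM.measurableSet).mono fun x hx => hM.finrank_tanP hx hE
  meas := hM.continuousOn_Hv.aestronglyMeasurable hM.measurableSet
  locL2 K hK := by
    rw [IntegrableOn, Measure.restrict_restrict hK.measurableSet]
    exact hM.integrableOn_compact hE (hK.inter_right hc) inter_subset_right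
      ((hM.continuousOn_Hv.norm.pow 2).mono inter_subset_right)
  normal := Eventually.of_forall fun x => Hv_mem M x
  fv X hX hXc := by
    rw [← hM.first_variation hE (fun x _ => hX.contDiffAt) (hXc.isCompact.inter_right hc)
      inter_subset_right fun x hx hx' => image_eq_zero_of_notMem_tsupport fun h => hx' ⟨h, hx⟩]
    exact setIntegral_congr_fun hM.measurableSet fun x hx => (hM.divM_eq_divAlong hx X).symm

end Surf

end Vale.Agent.P218N.H
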