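import Vale.Agent.P218N.H.Basic

/-! A closed smooth hypersurface of Euclidean space has a global defining function. -/

open Set Filter Topology Metric Asymptotics
open scoped RealInnerProductSpace ContDiff Manifold

namespace Vale.Agent.P218N.H

open Vale.Agent.P218.H313

set_option linter.unusedSectionVars false
set_option linter.unusedVariables false

/-- a locally constant cocycle on a simply connected space is a coboundary -/
theorem cocycle_cobd {X ι G : Type*} [TopologicalSpace X] [SimplyConnectedSpace X]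
    [LocallyPathConnectedSpace X] [Monoid G] (U : ι → Set X) (hU : ∀ i, IsOpen (U i))
    (idx : X → ι) (hidx : ∀ x, x ∈ U (idx x)) (c : ι → ι → X → G)
    (h1 : ∀ i, ∀ x ∈ U i, c i i x = 1)
    (h2 : ∀ i j, ∀ x ∈ U i ∩ U j, ∀ᶠ y in 𝓝 x, c i j y = c i j x)
    (h3 : ∀ i j k, ∀ x ∈ U i ∩ U j ∩ U k, c j k x * c i j x = c i k x) :
    ∃ e : ι → X → G, (∀ i, ∀ x ∈ U i, ∀ᶠ y in 𝓝 x, e i y = e i x) ∧
      ∀ i j, ∀ x ∈ U i ∩ U j, e j x = c i j x * e i x := by
  let _ : TopologicalSpace G := ⊥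
  have : DiscreteTopology G := ⟨rfl⟩
  let Z : FiberBundleCore ι X G :=
    { baseSet := U
      isOpen_baseSet := hU
      indexAt := idx
      mem_baseSet_at := hidx
      coordChange := fun i j x v => c i j x * v
      coordChange_self := fun i x hx v => by rw [h1 i x hx, one_mul]
      continuousOn_coordChange := fun i j p hp => by
        refine ContinuousAt.continuousWithinAt ?_
        have h4 : ∀ᶠ q : X × G in 𝓝 p, c i j q.1 = c i j p.1 :=
          continuous_fst.continuousAt.eventually (h2 i j p.1 hp.1)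
        have h5 : ∀ᶠ q : X × G in 𝓝 p, q.2 = p.2 :=
          continuous_snd.continuousAt.eventually (p := fun v => v = p.2)
            ((isOpen_discrete {p.2}).mem_nhds rfl)
        refine (continuousAt_const (y := c i j p.1 * p.2)).congr ?_
        filter_upwards [h4, h5] with q hq hq'
        rw [hq, hq']
      coordChange_comp := fun i j k x hx v => by rw [← mul_assoc, h3 i j k x hx] }
  have hcov : IsCoveringMap Z.proj := FiberBundle.isCoveringMap (F := G) (E := Z.Fiber)
  obtain ⟨x0⟩ : Nonempty X := inferInstance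
  obtain ⟨s, ⟨-, hs⟩, -⟩ := hcov.existsUnique_continuousMap_lifts (ContinuousMap.id X) x0
    ⟨x0, (1 : G)⟩ rfl
  have hs' : ∀ x, (s x).1 = x := fun x => congrFun hs x
  refine ⟨fun i x => (Z.localTriv i (s x)).2, fun i x hx => ?_, fun i j x hx => ?_⟩
  · have h4 : ContinuousAt (Z.localTriv i) (s x) :=
      (Z.localTriv i).continuousOn.continuousAt ((Z.localTriv i).open_source.mem_nhds
        ((Z.mem_localTriv_source i _).2 (by rw [hs']; exact hx)))
    have h5 : ContinuousAt (fun y => (Z.localTriv i (s y)).2) x :=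
      continuous_snd.continuousAt.comp (h4.comp s.continuous.continuousAt)
    exact h5.eventually (p := fun v => v = (Z.localTriv i (s x)).2)
      ((isOpen_discrete {(Z.localTriv i (s x)).2}).mem_nhds rfl)
  · simp only [FiberBundleCore.localTriv_apply]
    have h4 := Z.coordChange_comp (Z.indexAt (s x).1) i j (s x).1
      ⟨⟨Z.mem_baseSet_at _, by rw [hs']; exact hx.1⟩, by rw [hs']; exact hx.2⟩ (s x).2
    rw [← h4]
    change c i j (s x).1 * _ = _
    rw [hs']

variable {E : Type*} [NormedAddCommGroup E] [InnerProductSpace ℝ E] [FiniteDimensional ℝ E]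
variable {M U U' : Set E} {f g h : E → ℝ} {x : E}

/-- `f` cuts out `M` in the open set `U`, transversally along `M` -/
structure Cuts (M U : Set E) (f : E → ℝ) : Prop where
  isOpen : IsOpen U
  smooth : ContDiff ℝ ∞ f
  ne : ∀ x ∈ U, x ∈ M → fderiv ℝ f x ≠ 0
  mem_iff : ∀ x ∈ U, x ∈ M ↔ f x = 0

/-- `f` and `σ g` have the same sign off `M` near `x` -/
def Same (M : Set E) (σ : ℝ) (f g : E → ℝ) (x : E) : Prop :=
  ∀ᶠ y in 𝓝 x, y ∉ M → 0 < σ * (f y * g y)

lemma Cuts.grad_ne (hf : Cuts M U f) (hx : x ∈ U) (hM : x ∈ M) : grad f x ≠ 0 := by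
  rw [← norm_ne_zero_iff, norm_grad, norm_ne_zero_iff]; exact hf.ne x hx hM

lemma Cuts.frequently (hf : Cuts M U f) (hx : x ∈ U) : ∃ᶠ y in 𝓝 x, y ∉ M := by
  intro hn
  have h1 : ∀ᶠ y in 𝓝 x, y ∈ M := hn.mono fun y hy => not_not.1 hy
  have h2 : f =ᶠ[𝓝 x] fun _ => 0 := by
    filter_upwards [h1, hf.isOpen.mem_nhds hx] with y hy hy'
    exact (hf.mem_iff y hy').1 hy
  refine hf.ne x hx h1.self_of_nhds ?_
  rw [h2.fderiv_eq]; simp

lemma Cuts.same_self (hf : Cuts M U f) (hx : x ∈ U) : Same M 1 f f x := by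
  filter_upwards [hf.isOpen.mem_nhds hx] with y hy hM
  rw [one_mul]
  exact mul_self_pos.2 fun h0 => hM ((hf.mem_iff y hy).2 h0)

lemma Same.trans {σ τ : ℝ} (h1 : Same M σ f g x) (h2 : Same M τ g h x) :
    Same M (τ * σ) f h x := by
  filter_upwards [h1, h2] with y hy hy' hM
  have h3 := mul_pos (hy hM) (hy' hM)
  have h4 : σ * (f y * g y) * (τ * (g y * h y)) = τ * σ * (f y * h y) * (g y * g y) := by ring
  rw [h4] at h3
  exact (pos_iff_pos_of_mul_pos h3).2 (lt_of_le_of_ne (mul_self_nonneg _) fun h0 => by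
    rw [← h0, mul_zero] at h3; exact lt_irrefl _ h3)

lemma Cuts.not_both (hf : Cuts M U f) (hx : x ∈ U) (h1 : Same M 1 f g x)
    (h2 : Same M (-1) f g x) : False := by
  obtain ⟨y, hy, h3, h4⟩ := ((hf.frequently hx).and_eventually (h1.and h2)).exists
  have := h3 hy
  have := h4 hy
  linarith

/-- a function with nonzero derivative changes sign -/
lemma not_onesided {σ : ℝ} (hσ : σ ≠ 0) (hg : Differentiable ℝ g) (h0 : g x = 0)
    (hne : fderiv ℝ g x ≠ 0) (hs : ∀ᶠ y in 𝓝 x, 0 ≤ σ * g y) : False := by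
  have h1 : IsLocalMin (fun y => σ * g y) x := by
    filter_upwards [hs] with y hy
    simpa [h0] using hy
  have h2 := h1.hasFDerivAt_eq_zero ((hg x).hasFDerivAt.const_mul σ)
  exact hne ((smul_eq_zero.1 h2).resolve_left hσ)

/-- two functions which cut out `M` have the same or opposite signs -/
theorem Cuts.same_or (hf : Cuts M U f) (hg : Cuts M U' g) (hx : x ∈ U) (hx' : x ∈ U') :
    Same M 1 f g x ∨ Same M (-1) f g x := by
  by_cases hM : x ∈ M
  swap
  · have h1 : f x * g x ≠ 0 := mul_ne_zero (fun h0 => hM ((hf.mem_iff x hx).2 h0))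
      (fun h0 => hM ((hg.mem_iff x hx').2 h0))
    have h2 : ContinuousAt (fun y => f y * g y) x :=
      (hf.smooth.continuous.mul hg.smooth.continuous).continuousAt
    rcases lt_or_gt_of_ne h1 with h3 | h3
    · right
      filter_upwards [h2.eventually (gt_mem_nhds h3)] with y hy _
      linarith
    · left
      filter_upwards [h2.eventually (lt_mem_nhds h3)] with y hy _
      linarith
  have hgr := hf.grad_ne hx hM
  obtain ⟨φ, h1, h2, h3, h4, -⟩ := exists_strt hf.smooth hgr (hf.isOpen.inter hg.isOpen) ⟨hx, hx'⟩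
  obtain ⟨r, hr, hB⟩ := Metric.isOpen_iff.1 φ.open_target _ (φ.map_source h1)
  have hfφ : ∀ y, ⟪nuW f x, φ y⟫ = f y := fun y => by rw [h3, inner_strt hgr]
  have hV : ∀ᶠ y in 𝓝 x, y ∈ φ.source ∧ φ y ∈ ball (φ x) r :=
    Filter.Eventually.and (φ.open_source.mem_nhds h1)
      ((φ.continuousAt h1).eventually (ball_mem_nhds _ hr))
  have key : ∀ τ : ℝ, τ ≠ 0 → ∃ σ : ℝ, (σ = 1 ∨ σ = -1) ∧
      ∀ y ∈ φ.source, φ y ∈ ball (φ x) r → 0 < τ * f y → 0 < σ * g y := by
    intro τ hτ
    set S := ball (φ x) r ∩ {z | 0 < τ * ⟪nuW f x, z⟫} with hS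
    have hconv : Convex ℝ S := by
      refine (convex_ball _ _).inter ?_
      have hl : IsLinearMap ℝ fun z : E => τ * ⟪nuW f x, z⟫ :=
        ⟨fun a b => by rw [inner_add_right]; ring, fun c a => by
          rw [real_inner_smul_right, smul_eq_mul]; ring⟩
      exact convex_halfSpace_gt hl 0
    have hcont : ContinuousOn (fun z => g (φ.symm z)) S :=
      hg.smooth.continuous.comp_continuousOn (φ.continuousOn_symm.mono fun z hz => hB hz.1)
    have hnz : ∀ z ∈ S, g (φ.symm z) ≠ 0 := by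
      intro z hz h0
      have h5 := φ.map_target (hB hz.1)
      have h6 := (hf.mem_iff _ (h2 h5).1).1 ((hg.mem_iff _ (h2 h5).2).2 h0)
      have h7 : 0 < τ * ⟪nuW f x, z⟫ := hz.2
      rw [← φ.right_inv (hB hz.1), hfφ, h6, mul_zero] at h7
      exact lt_irrefl _ h7
    have hmem : ∀ y, φ y ∈ ball (φ x) r → 0 < τ * f y → φ y ∈ S := fun y hy hy' =>
      ⟨hy, show 0 < τ * ⟪nuW f x, φ y⟫ by rw [hfφ]; exact hy'⟩
    rcases hconv.isPreconnected.mapsTo_Ioi_or_Iio hcont hnz with h5 | h5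
    · refine ⟨1, Or.inl rfl, fun y hy hy' hy'' => ?_⟩
      have h6 : 0 < g (φ.symm (φ y)) := h5 (hmem y hy' hy'')
      rw [φ.left_inv hy] at h6
      linarith
    · refine ⟨-1, Or.inr rfl, fun y hy hy' hy'' => ?_⟩
      have h6 : g (φ.symm (φ y)) < 0 := h5 (hmem y hy' hy'')
      rw [φ.left_inv hy] at h6
      linarith
  obtain ⟨σ, hσ, hp⟩ := key 1 one_ne_zero
  obtain ⟨σ', hσ', hn⟩ := key (-1) (by norm_num)
  have hσ0 : σ ≠ 0 := by rcases hσ with h5 | h5 <;> rw [h5] <;> norm_num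
  have hne : σ' = -σ := by
    by_contra hcon
    have h5 : σ' = σ := by
      rcases hσ with h5 | h5 <;> rcases hσ' with h6 | h6 <;> simp_all
    refine not_onesided hσ0 (hg.smooth.differentiable (by simp)) ((hg.mem_iff x hx').1 hM)
      (hg.ne x hx' hM) ?_
    filter_upwards [hV] with y hy
    rcases lt_trichotomy (f y) 0 with h6 | h6 | h6
    · rw [← h5]; exact (hn y hy.1 hy.2 (by linarith)).le
    · rw [(hg.mem_iff y (h2 hy.1).2).1 ((hf.mem_iff y (h2 hy.1).1).2 h6), mul_zero]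
    · exact (hp y hy.1 hy.2 (by linarith)).le
  have hS : Same M σ f g x := by
    filter_upwards [hV] with y hy hyM
    have h5 : f y ≠ 0 := fun h0 => hyM ((hf.mem_iff y (h2 hy.1).1).2 h0)
    rcases lt_or_gt_of_ne h5 with h6 | h6
    · have h7 := hn y hy.1 hy.2 (by linarith)
      rw [hne] at h7
      nlinarith
    · have h7 := hp y hy.1 hy.2 (by linarith)
      nlinarith
  rcases hσ with h5 | h5 <;> rw [h5] at hS
  · exact Or.inl hS
  · exact Or.inr hS

open Classical in
/-- the relative sign of two functions -/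
noncomputable def rel (M : Set E) (f g : E → ℝ) (x : E) : ℝ := if Same M 1 f g x then 1 else -1

lemma rel_sq (M : Set E) (f g : E → ℝ) (x : E) : rel M f g x = 1 ∨ rel M f g x = -1 := by
  unfold rel; split_ifs <;> simp

lemma Cuts.same_rel (hf : Cuts M U f) (hg : Cuts M U' g) (hx : x ∈ U) (hx' : x ∈ U') :
    Same M (rel M f g x) f g x := by
  unfold rel
  split_ifs with h1
  · exact h1
  · exact (hf.same_or hg hx hx').resolve_left h1

lemma Cuts.rel_eq (hf : Cuts M U f) (hx : x ∈ U) {σ : ℝ} (hσ : σ = 1 ∨ σ = -1)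
    (hs : Same M σ f g x) : rel M f g x = σ := by
  unfold rel
  rcases hσ with h1 | h1 <;> rw [h1] at hs ⊢
  · rw [if_pos hs]
  · rw [if_neg fun h2 => hf.not_both hx h2 hs]

/-- local defining functions with compatible signs -/
theorem Surf.exists_compat (h : Surf M) (hc : IsClosed M) :
    ∃ (U : E → Set E) (u : E → E → ℝ), (∀ p, IsOpen (U p)) ∧ (∀ p, p ∈ U p) ∧
      (∀ p, ∀ x ∈ U p, ContDiffAt ℝ ∞ (u p) x) ∧ (∀ p, ∀ x ∈ U p, x ∈ M ↔ u p x = 0) ∧
      (∀ p, ∀ x ∈ U p, x ∈ M → fderiv ℝ (u p) x ≠ 0) ∧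
      ∀ p q, ∀ x ∈ U p ∩ U q, 0 ≤ u p x * u q x := by
  have h1 : ∀ p, ∃ (w : E → ℝ) (U : Set E), p ∈ U ∧ Cuts M U w := by
    intro p
    by_cases hp : p ∈ M
    · obtain ⟨w, U, h2, h3⟩ := h p hp
      refine ⟨w, U, h2, h3.isOpen, h3.smooth, fun x hx _ => ?_, h3.mem_iff⟩
      rw [← norm_ne_zero_iff, ← norm_grad, norm_ne_zero_iff]; exact h3.ne x hx
    · exact ⟨fun _ => 1, Mᶜ, hp, hc.isOpen_compl, contDiff_const, fun x hx hx' => absurd hx' hx,
        fun x hx => ⟨fun hx' => absurd hx' hx, fun h0 => absurd h0 one_ne_zero⟩⟩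
  choose w U hU hw using h1
  have hne : ∀ p q x, rel M (w p) (w q) x ≠ 0 := fun p q x => by
    rcases rel_sq M (w p) (w q) x with h2 | h2 <;> rw [h2] <;> norm_num
  obtain ⟨e, he1, he2⟩ := cocycle_cobd U (fun p => (hw p).isOpen) id hU
    (fun p q x => Units.mk0 (rel M (w p) (w q) x) (hne p q x))
    (fun p x hx => Units.ext ((hw p).rel_eq hx (Or.inl rfl) ((hw p).same_self hx)))
    (fun p q x hx => by
      have h2 := (hw p).same_rel (hw q) hx.1 hx.2
      filter_upwards [eventually_eventually_nhds.2 h2, (hw p).isOpen.mem_nhds hx.1] with y hy hy'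
      exact Units.ext ((hw p).rel_eq hy' (rel_sq _ _ _ _) hy))
    (fun p q r x hx => by
      refine Units.ext ((hw p).rel_eq hx.1.1 ?_ (((hw p).same_rel (hw q) hx.1.1 hx.1.2).trans
        ((hw q).same_rel (hw r) hx.1.2 hx.2))).symm
      rcases rel_sq M (w q) (w r) x with h2 | h2 <;> rcases rel_sq M (w p) (w q) x with h3 | h3 <;>
        rw [h2, h3] <;> norm_num)
  have hev : ∀ p, ∀ x ∈ U p, (fun y => (e p y : ℝ) * w p y) =ᶠ[𝓝 x] fun y => (e p x : ℝ) * w p y :=
    fun p x hx => (he1 p x hx).mono fun y hy => by simp only [hy]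
  refine ⟨U, fun p y => (e p y : ℝ) * w p y, fun p => (hw p).isOpen, hU, fun p x hx => ?_,
    fun p x hx => ?_, fun p x hx hM => ?_, fun p q x hx => ?_⟩
  · exact (contDiffAt_const.mul (hw p).smooth.contDiffAt).congr_of_eventuallyEq (hev p x hx)
  · rw [(hw p).mem_iff x hx, mul_eq_zero, or_iff_right (e p x).ne_zero]
  · rw [(hev p x hx).fderiv_eq,
      (((hw p).smooth.differentiable (by simp) x).hasFDerivAt.const_mul _).fderiv]
    exact smul_ne_zero (e p x).ne_zero ((hw p).ne x hx hM)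
  · by_cases hM : x ∈ M
    · simp only [((hw p).mem_iff x hx.1).1 hM, mul_zero, zero_mul, le_refl]
    · have h2 := ((hw p).same_rel (hw q) hx.1 hx.2).self_of_nhds hM
      have h3 : (e q x : ℝ) = rel M (w p) (w q) x * e p x := congrArg Units.val (he2 p q x hx)
      simp only [h3]
      nlinarith [mul_self_nonneg (e p x : ℝ)]

/-- a global defining function, not normalised -/
theorem Surf.exists_global' (h : Surf M) (hc : IsClosed M) :
    ∃ w : E → ℝ, ContDiff ℝ ∞ w ∧ (∀ x, x ∈ M ↔ w x = 0) ∧ ∀ x ∈ M, fderiv ℝ w x ≠ 0 := by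
  obtain ⟨U, u, hU, hpU, hsm, hM, hne, hsg⟩ := h.exists_compat hc
  obtain ⟨χ, hχ⟩ := SmoothPartitionOfUnity.exists_isSubordinate 𝓘(ℝ, E) isClosed_univ U hU
    fun x _ => mem_iUnion.2 ⟨x, hpU x⟩
  have hmem : ∀ p x, χ p x ≠ 0 → x ∈ U p := fun p x hx => hχ p (subset_tsupport _ hx)
  set w : E → ℝ := fun x => ∑ᶠ p, χ p x • u p x with hw
  have hw1 : ContDiff ℝ ∞ w :=
    (χ.contMDiff_finsum_smul fun p x hx => (hsm p x (hχ p hx)).contMDiffAt).contDiff
  have hfin : ∀ x, (Function.support fun p => χ p x).Finite := fun x =>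
    χ.locallyFinite.point_finite x
  have hlow : ∀ p, ∀ x ∈ U p, χ p x * (u p x * u p x) ≤ u p x * w x := by
    intro p x hx
    have h1 : u p x * w x = ∑ᶠ q, χ q x * (u p x * u q x) := by
      rw [hw, mul_finsum]
      refine finsum_congr fun q => ?_
      rw [smul_eq_mul]; ring
    rw [h1]
    refine single_le_finsum p (f := fun q => χ q x * (u p x * u q x))
      ((hfin x).subset fun q hq => left_ne_zero_of_mul hq) fun q => ?_
    by_cases h2 : χ q x = 0
    · rw [h2, zero_mul]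
    · exact mul_nonneg (χ.nonneg q x) (hsg p q x ⟨hx, hmem q x h2⟩)
  have hzero : ∀ x ∈ M, w x = 0 := by
    intro x hx
    refine finsum_eq_zero_of_forall_eq_zero fun p => ?_
    by_cases h2 : χ p x = 0
    · rw [h2, zero_smul]
    · rw [(hM p x (hmem p x h2)).1 hx, smul_zero]
  refine ⟨w, hw1, fun x => ⟨hzero x, fun h0 => ?_⟩, fun x hx h0 => ?_⟩
  · obtain ⟨p, hp⟩ := χ.exists_pos_of_mem (mem_univ x)
    have h1 := hlow p x (hmem p x hp.ne')
    rw [h0, mul_zero] at h1
    rw [hM p x (hmem p x hp.ne')]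
    by_contra h2
    linarith [mul_pos hp (mul_self_pos.2 h2)]
  · obtain ⟨p, hp⟩ := χ.exists_pos_of_mem (mem_univ x)
    have hxU := hmem p x hp.ne'
    have h1 : ∀ᶠ y in 𝓝 x, χ p x / 2 < χ p y :=
      (χ p).contMDiff.continuous.continuousAt.eventually (lt_mem_nhds (half_lt_self hp))
    have h2 : u p =O[𝓝 x] w := by
      refine IsBigO.of_bound (2 / χ p x) ?_
      filter_upwards [h1, (hU p).mem_nhds hxU] with y hy hy'
      have h3 := hlow p y hy'
      rw [Real.norm_eq_abs, Real.norm_eq_abs, div_mul_eq_mul_div, le_div_iff₀ hp]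
      by_cases h4 : u p y = 0
      · rw [h4, abs_zero, zero_mul]; positivity
      · have h5 : 0 < |u p y| := abs_pos.2 h4
        refine le_of_mul_le_mul_left ?_ h5
        have h6 : u p y * w y ≤ |u p y| * |w y| := by rw [← abs_mul]; exact le_abs_self _
        have h7 : |u p y| * |u p y| = u p y * u p y := abs_mul_abs_self _
        nlinarith [mul_self_nonneg (u p y)]
    have h3 : HasFDerivAt w (0 : E →L[ℝ] ℝ) x := h0 ▸ (hw1.differentiable (by simp) x).hasFDerivAt
    have h4 : HasFDerivAt (u p) (0 : E →L[ℝ] ℝ) x := by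
      rw [hasFDerivAt_iff_isLittleO] at h3 ⊢
      simp only [hzero x hx, (hM p x hxU).1 hx, zero_apply, sub_zero] at h3 ⊢
      exact h2.trans_isLittleO h3
    exact hne p x hxU hx h4.fderiv

/-- a closed hypersurface has a global defining function with unit gradient on the surface -/
theorem Surf.exists_global (h : Surf M) (hc : IsClosed M) :
    ∃ w : E → ℝ, ContDiff ℝ ∞ w ∧ (∀ x, x ∈ M ↔ w x = 0) ∧ ∀ x ∈ M, ‖grad w x‖ = 1 := by
  obtain ⟨w, h1, h2, h3⟩ := h.exists_global' hc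
  have hg : ∀ x ∈ M, grad w x ≠ 0 := fun x hx => by
    rw [← norm_ne_zero_iff, norm_grad, norm_ne_zero_iff]; exact h3 x hx
  set D : E → ℝ := fun x => ‖grad w x‖ ^ 2 + w x ^ 2 with hD
  have hpos : ∀ x, 0 < D x := by
    intro x
    by_cases hx : x ∈ M
    · exact add_pos_of_pos_of_nonneg (pow_pos (norm_pos_iff.2 (hg x hx)) 2) (sq_nonneg _)
    · exact add_pos_of_nonneg_of_pos (sq_nonneg _) (sq_pos_iff.2 fun h0 => hx ((h2 x).2 h0))
  have hDs : ContDiff ℝ ∞ D := ((contDiff_grad_top h1).norm_sq ℝ).add (h1.pow 2)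
  have hq : ContDiff ℝ ∞ fun x => (√(D x))⁻¹ :=
    (hDs.sqrt fun x => (hpos x).ne').inv fun x => (Real.sqrt_pos.2 (hpos x)).ne'
  refine ⟨fun x => (√(D x))⁻¹ * w x, hq.mul h1, fun x => ?_, fun x hx => ?_⟩
  · rw [h2, mul_eq_zero, or_iff_right (inv_ne_zero (Real.sqrt_pos.2 (hpos x)).ne')]
  · rw [grad_mul (hq.differentiable (by simp) x) (h1.differentiable (by simp) x), (h2 x).1 hx,
      zero_smul, add_zero, norm_smul, norm_inv, hD]
    simp only [(h2 x).1 hx, ne_eq, OfNat.ofNat_ne_zero, not_false_eq_true, zero_pow, add_zero,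
      Real.sqrt_sq (norm_nonneg _), norm_norm]
    exact inv_mul_cancel₀ (norm_ne_zero_iff.2 (hg x hx))

end Vale.Agent.P218N.H
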