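import Vale.Agent.P218N.H.Div
import Vale.Agent.P218N.G.IntSl
import Mathlib.Analysis.Distribution.AEEqOfIntegralContDiff

/-! A surface is an integral slice; the weak tangent planes and mean curvature are the classical
ones. -/

open MeasureTheory Set Filter Topology Metric
open scoped NNReal RealInnerProductSpace ContDiff

namespace Vale.Agent.P218N.H

open Vale.Agent.P218.H313
open Vale.Agent.P218.H552 (MC)
open Vale.Agent.P214 (proj divAlong IsApproxTangent)
open Vale.Agent.P218GA (cH cH_pos cH_pos')

set_option linter.unusedSectionVars false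
set_option linter.unusedVariables false

variable {E : Type*} [NormedAddCommGroup E] [InnerProductSpace ℝ E] [FiniteDimensional ℝ E]
  [MeasurableSpace E] [BorelSpace E] {m : ℕ} {M : Set E}

lemma Frame.integral_plane (f : Frame m E) (g : E → ℝ) :
    ∫ z in ((ℝ ∙ f.n)ᗮ : Submodule ℝ E), g z ∂μH[m] = ∫ y, cH m * g (f.ι y) := by
  have h1 := integral_gr (f := f) (p := 0) (u := fun _ => 0) contDiff_const MeasurableSet.univ g
  have h2 : f.gr 0 (fun _ => 0) '' univ = ((ℝ ∙ f.n)ᗮ : Submodule ℝ E) := by
    ext z
    simp only [image_univ, mem_range, Frame.gr, zero_smul, add_zero, zero_add, SetLike.mem_coe,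
      Submodule.mem_orthogonal_singleton_iff_inner_right]
    constructor
    · rintro ⟨y, rfl⟩; exact f.inner_n_ι y
    · intro h; exact ⟨f.π z, by rw [f.ι_π, h, zero_smul, sub_zero]⟩
  have h3 : ∀ y : Em m, grad (fun _ : Em m => (0 : ℝ)) y = 0 := fun y =>
    grad_unique fun v => by simp
  rw [h2] at h1
  simpa [gJ, h3, Frame.gr] using h1

/-- the classical tangent plane is the approximate tangent plane, with multiplicity one -/
theorem Surf.approxTangent (hE : Module.finrank ℝ E = m + 1) (hM : Surf M) {x : E} (hx : x ∈ M) :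
    IsApproxTangent m ((μH[m] : Measure E).restrict M) x 1 (tanP M x) := by
  refine ⟨hM.finrank_tanP hx hE, fun g hg hgc => ?_⟩
  obtain ⟨f, u, r, h, hn, c, hu0, hdu, -⟩ := hM.exists_tchart hE hx univ_mem
  have hu := contDiff_one' c.smooth
  rw [tanP, ← hn, f.integral_plane, Nat.cast_one, one_mul]
  obtain ⟨R, hR0, hR⟩ := hgc.isCompact.isBounded.subset_ball_lt 0 (0 : E)
  have hg0 : ∀ z, R ≤ ‖z‖ → g z = 0 := fun z hz => image_eq_zero_of_notMem_tsupport fun h1 =>
    (mem_ball_zero_iff.1 (hR h1)).not_ge hz
  obtain ⟨C, hC⟩ := hgc.exists_bound_of_continuous hg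
  obtain ⟨C', hC'⟩ := (isCompact_closedBall (0 : Em m) r).exists_bound_of_continuousOn
    (continuous_gJ hu).continuousOn
  have hs : 0 < min r h := lt_min c.r_pos c.h_pos
  have hnorm : ∀ (y : Em m) (t : ℝ), ‖y‖ ≤ ‖f.ι y + t • f.n‖ := fun y t =>
    le_of_sq_le_sq (by rw [f.norm_sq]; nlinarith [sq_nonneg t]) (norm_nonneg _)
  have hev : ∀ᶠ ρ in 𝓝[>] (0 : ℝ), 0 < ρ ∧ ρ * R < min r h := by
    refine Filter.Eventually.and self_mem_nhdsWithin (nhdsWithin_le_nhds ?_)
    exact (continuous_id.mul continuous_const).continuousAt.eventually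
      (gt_mem_nhds (by simpa using hs))
  set F : ℝ → Em m → ℝ := fun ρ y => gJ u (ρ • y) * g (f.ι y + (ρ⁻¹ * u (ρ • y)) • f.n) with hF
  have h1 : ∀ ρ, 0 < ρ → ρ * R < min r h →
      (∫ z in M, g (ρ⁻¹ • (z - x)) ∂μH[m]) / ρ ^ m = ∫ y, F ρ y := fun ρ hρ hρR => by
    have h2 : ∀ z : E, min r h ≤ ‖z‖ → g (ρ⁻¹ • z) = 0 := fun z hz => hg0 _ (by
      rw [norm_smul, Real.norm_of_nonneg (inv_pos.2 hρ).le, le_inv_mul_iff₀ hρ]; linarith)
    rw [setIntegral_eq_of_subset_of_forall_sdiff_eq_zero (s := M ∩ f.cyl x r h) hM.measurableSet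
      inter_subset_left ?_, ← c.image, integral_gr hu measurableSet_ball,
      setIntegral_eq_integral_of_forall_compl_eq_zero]
    · have h3 := Measure.integral_comp_smul (volume : Measure (Em m))
        (fun y => gJ u y • g (ρ⁻¹ • (f.gr x u y - x))) ρ
      rw [finrank_euclideanSpace, Fintype.card_fin, abs_of_pos (by positivity), smul_eq_mul] at h3
      rw [div_eq_inv_mul, ← h3]
      refine integral_congr_ae (Eventually.of_forall fun y => ?_)
      simp only [hF, Frame.gr, add_sub_cancel_left, smul_add, map_smul, smul_smul,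
        inv_mul_cancel₀ hρ.ne', one_smul, smul_eq_mul]
    · intro y hy
      rw [mem_ball_zero_iff, not_lt] at hy
      rw [h2, smul_zero]
      rw [Frame.gr, add_sub_cancel_left]
      exact ((min_le_left _ _).trans hy).trans (hnorm _ _)
    · rintro z ⟨h3, h4⟩
      refine h2 _ (not_lt.1 fun h5 => h4 ⟨h3, f.ball_subset_cyl x (min_le_left r h)
        (min_le_right r h) ?_⟩)
      rwa [mem_ball, dist_eq_norm]
  refine Tendsto.congr' (hev.mono fun ρ hρ => (h1 ρ hρ.1 hρ.2).symm) ?_
  refine tendsto_integral_filter_of_dominated_convergence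
    (indicator (closedBall 0 R) fun _ => C' * C) ?_ ?_ ?_ ?_
  · refine Eventually.of_forall fun ρ => Continuous.aestronglyMeasurable ?_
    have := continuous_gJ hu
    have := hu.continuous
    simp only [hF]; fun_prop
  · filter_upwards [hev] with ρ hρ
    refine Eventually.of_forall fun y => ?_
    by_cases hy : y ∈ closedBall (0 : Em m) R
    · rw [indicator_of_mem hy, hF, norm_mul]
      refine mul_le_mul (hC' _ ?_) (hC _) (norm_nonneg _) ((norm_nonneg _).trans (hC' 0 ?_))
      · rw [mem_closedBall_zero_iff] at hy ⊢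
        rw [norm_smul, Real.norm_of_nonneg hρ.1.le]
        have := min_le_left r h
        nlinarith [hρ.1, hρ.2]
      · exact mem_closedBall_self c.r_pos.le
    · rw [indicator_of_notMem hy, hF]
      rw [mem_closedBall_zero_iff, not_le] at hy
      simp only [hg0 _ (hy.le.trans (hnorm _ _)), mul_zero, norm_zero, le_refl]
  · exact (integrableOn_const (measure_closedBall_lt_top.ne)).integrable_indicator
      measurableSet_closedBall
  · refine Eventually.of_forall fun y => ?_
    have h2 : Tendsto (fun ρ : ℝ => ρ • y) (𝓝[>] 0) (𝓝 0) := by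
      have : Tendsto (fun ρ : ℝ => ρ • y) (𝓝 0) (𝓝 ((0 : ℝ) • y)) :=
        (continuous_id.smul continuous_const).tendsto 0
      rw [zero_smul] at this
      exact this.mono_left nhdsWithin_le_nhds
    have h3 : Tendsto (fun ρ : ℝ => gJ u (ρ • y)) (𝓝[>] 0) (𝓝 (cH m)) := by
      have := ((continuous_gJ hu).tendsto 0).comp h2
      rwa [show gJ u 0 = cH m by simp [gJ, hdu]] at this
    have h4 : HasDerivAt (fun ρ : ℝ => u (ρ • y)) 0 0 := by
      have h5 : HasDerivAt (fun ρ : ℝ => ρ • y) y 0 := by
        simpa using (hasDerivAt_id (0 : ℝ)).smul_const y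
      have h6 : HasFDerivAt u (fderiv ℝ u 0) ((0 : ℝ) • y) := by
        rw [zero_smul]; exact (c.diff 0).hasFDerivAt
      have h7 := h6.comp_hasDerivAt (0 : ℝ) h5
      rwa [← inner_grad, hdu, inner_zero_left] at h7
    have h5 : Tendsto (fun ρ : ℝ => ρ⁻¹ * u (ρ • y)) (𝓝[>] 0) (𝓝 0) := by
      have := h4.tendsto_slope_zero_right
      simpa [hu0] using this
    have h6 : Tendsto (fun ρ : ℝ => f.ι y + (ρ⁻¹ * u (ρ • y)) • f.n) (𝓝[>] 0) (𝓝 (f.ι y)) := by
      simpa using (h5.smul_const f.n).const_add (f.ι y)
    exact h3.mul ((hg.tendsto _).comp h6)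

theorem Surf.intSl (hE : Module.finrank ℝ E = m + 1) (hM : Surf M) :
    G.IntSl m ((μH[m] : Measure E).restrict M) (tanP M) :=
  G.intSl_restrict ((ae_restrict_mem hM.measurableSet).mono fun _ hx => hM.approxTangent hE hx)

theorem Surf.slice (hE : Module.finrank ℝ E = m + 1) (hM : Surf M) (hc : IsClosed M) :
    Slice m ((μH[m] : Measure E).restrict M) (tanP M) (Hv M) where
  mc := hM.mc hE hc
  dens := by
    filter_upwards [ae_restrict_mem hM.measurableSet] with x hx c hc
    have h2 := hM.approxTangent hE hx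
    have h3 := h2.2 ker continuous_ker ker_compact
    rw [A1.integral_ker_plane h2.1, Nat.cast_one, one_mul] at h3
    exact (h3.eventually (lt_mem_nhds hc)).mono fun r hr => le_of_lt hr

lemma Surf.vel_eq (hM : Surf M) {x : E} (hx : x ∈ M) :
    vel (tanP M) (Hv M) x = (⟪nu M x, x⟫ / 2 - tr (sff M x)) • nu M x := by
  rw [vel, hM.proj_tanP hx, PT_apply, sub_sub_cancel, Hv, smul_smul, ← add_smul]
  congr 1; ring

lemma Surf.continuousOn_vel (hM : Surf M) : ContinuousOn (vel (tanP M) (Hv M)) M := by
  have h1 : ContinuousOn (fun x => Hv M x + (1 / 2 : ℝ) • (x - PT M x x)) M :=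
    hM.continuousOn_Hv.add ((continuousOn_id.sub
      (hM.continuousOn_PT.clm_apply continuousOn_id)).const_smul _)
  exact h1.congr fun x hx => by rw [vel, hM.proj_tanP hx]

theorem Surf.gslice (hE : Module.finrank ℝ E = m + 1) (hM : Surf M) (hc : IsCompact M) :
    GSlice m ((μH[m] : Measure E).restrict M) (tanP M) (Hv M) where
  toSlice := hM.slice hE hc.isClosed
  mom p := hM.integrableOn_compact hE hc subset_rfl (by unfold rho; fun_prop)
  vsq p := hM.integrableOn_compact hE hc subset_rfl (((by fun_prop : ContinuousOn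
    (fun x : E => (1 + ‖x‖) ^ p) M).mul (hM.continuousOn_vel.norm.pow 2)).mul
      (by unfold rho; fun_prop))

/-! ### uniqueness of the weak tangent planes and of the weak mean curvature -/

lemma ae_of_locally {μ : Measure E} {P : E → Prop} (hM : MeasurableSet M)
    (h : ∀ x ∈ M, ∃ U ∈ 𝓝 x, ∀ᵐ y ∂μ.restrict M, y ∈ U → P y) : ∀ᵐ y ∂μ.restrict M, P y := by
  have h1 : (μ.restrict M) {y | y ∈ M ∧ ¬ P y} = 0 := by
    refine measure_null_of_locally_null _ fun x hx => ?_
    obtain ⟨U, hU, h2⟩ := h x hx.1
    refine ⟨{y | y ∈ M ∧ ¬ P y} ∩ U, inter_mem_nhdsWithin _ hU, measure_mono_null ?_ (ae_iff.1 h2)⟩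
    exact fun y hy h3 => hy.1.2 (h3 hy.2)
  filter_upwards [ae_restrict_mem hM, measure_eq_zero_iff_ae_notMem.1 h1] with y h2 h3
  by_contra h4
  exact h3 ⟨h2, h4⟩

variable {T : E → Submodule ℝ E} {H : E → E}

theorem Surf.tan_unique (hE : Module.finrank ℝ E = m + 1) (hM : Surf M)
    (h : MC m ((μH[m] : Measure E).restrict M) T H) :
    ∀ᵐ x ∂(μH[m] : Measure E).restrict M, T x = tanP M x := by
  have := h.fin
  have := FiniteDimensional.complete ℝ E
  refine ae_of_locally hM.measurableSet fun p hp => ?_
  obtain ⟨w, U, hpU, hw⟩ := hM p hp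
  have hw1 := contDiff_one' hw.smooth
  have hgc := continuous_grad hw1
  have hloc : LocallyIntegrable (fun x => proj (T x) (grad w x))
      ((μH[m] : Measure E).restrict M) := by
    refine (hgc.locallyIntegrable (μ := (μH[m] : Measure E).restrict M)).mono ?_
      (Eventually.of_forall fun x => norm_proj_apply_le _ _)
    exact (isBoundedBilinearMap_apply.continuous.comp_aestronglyMeasurable
      (h.Tmeas.prodMk hgc.aestronglyMeasurable))
  have h1 := hw.isOpen.ae_eq_zero_of_integral_contDiff_smul_eq_zero
    (hloc.locallyIntegrableOn U) fun g hg hgc' hgU => by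
      refine ext_inner_left ℝ fun v => ?_
      have hg1 := contDiff_one' hg
      rw [← integral_inner (hloc.integrable_smul_left_of_hasCompactSupport hg.continuous hgc'),
        inner_zero_right]
      have h2 := h.fv (fun z => (g z * w z) • v) ((hg1.mul hw1).smul contDiff_const)
        (hgc'.mul_right.smul_right (f' := fun _ => v))
      have h3 : ∀ x ∈ M, g x * w x = 0 := fun x hx => by
        by_cases h4 : x ∈ tsupport g
        · rw [hw.zero (hgU h4) hx, mul_zero]
        · rw [image_eq_zero_of_notMem_tsupport h4, zero_mul]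
      rw [setIntegral_congr_fun hM.measurableSet (g := fun _ => 0)
        (f := fun x => ⟪(g x * w x) • v, H x⟫) fun x hx => by simp [h3 x hx], integral_zero,
        neg_zero] at h2
      rw [← h2]
      refine setIntegral_congr_fun hM.measurableSet fun x hx => ?_
      have h4 := hg1.differentiable (by simp) x
      have h5 := hw1.differentiable (by simp) x
      rw [divAlong_smul _ (h4.fun_mul h5) (differentiableAt_const v), h3 x hx, zero_mul, zero_add,
        grad_mul h4 h5, real_inner_comm]
      by_cases h6 : x ∈ tsupport g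
      · rw [hw.zero (hgU h6) hx, zero_smul, add_zero, map_smul]
      · have h7 : grad g x = 0 := by
          rw [grad_congr (notMem_tsupport_iff_eventuallyEq.1 h6)]
          exact grad_unique fun v => by simp
        rw [h7, smul_zero, add_zero, map_smul]
  refine ⟨U, hw.isOpen.mem_nhds hpU, ?_⟩
  filter_upwards [h1, h.dim, ae_restrict_mem hM.measurableSet] with x h2 h3 hx hxU
  refine Submodule.eq_of_le_of_finrank_eq (fun v hv => ?_) (h3.trans (hM.finrank_tanP hx hE).symm)
  rw [hw.tanP_eq hxU hx, Submodule.mem_orthogonal_singleton_iff_inner_right]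
  have h4 : proj (T x) v = v := Submodule.starProjection_eq_self_iff.2 hv
  rw [← h4, ← P218.H552.inner_proj_left, h2 hxU, inner_zero_left]

theorem Surf.mean_unique (hE : Module.finrank ℝ E = m + 1) (hM : Surf M)
    (h : MC m ((μH[m] : Measure E).restrict M) T H) :
    ∀ᵐ x ∂(μH[m] : Measure E).restrict M, H x = Hv M x := by
  have := h.fin
  have := FiniteDimensional.complete ℝ E
  refine ae_of_locally hM.measurableSet fun p hp => ?_
  obtain ⟨w, U, hpU, hw⟩ := hM p hp
  have hK : ∀ K, IsCompact K → K ⊆ U → IsCompact (K ∩ M) := fun K hK hKU => by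
    have : K ∩ M = K ∩ {x | w x = 0} := by
      ext x; exact and_congr_right fun hx => hw.mem_iff x (hKU hx)
    rw [this]
    exact hK.inter_right (isClosed_eq hw.smooth.continuous continuous_const)
  have hH : LocallyIntegrable H ((μH[m] : Measure E).restrict M) := by
    refine locallyIntegrable_iff.2 fun K hK => ?_
    have h1 : IntegrableOn (fun x => 1 + ‖H x‖ ^ 2) K ((μH[m] : Measure E).restrict M) :=
      (integrableOn_const hK.measure_lt_top.ne).add (h.locL2 K hK)
    refine h1.mono' h.meas.restrict (Eventually.of_forall fun x => ?_)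
    nlinarith [sq_nonneg (‖H x‖ - 1), norm_nonneg (H x)]
  have hH' : LocallyIntegrableOn (Hv M) U ((μH[m] : Measure E).restrict M) := by
    refine (locallyIntegrableOn_iff hw.isOpen.isLocallyClosed).2 fun K hKU hK' => ?_
    rw [IntegrableOn, Measure.restrict_restrict hK'.measurableSet]
    exact hM.integrableOn_compact hE (hK K hK' hKU) inter_subset_right
      (hM.continuousOn_Hv.mono inter_subset_right)
  have h1 := hw.isOpen.ae_eq_zero_of_integral_contDiff_smul_eq_zero
    ((hH.locallyIntegrableOn U).sub hH') fun g hg hgc hgU => by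
      have hg1 := contDiff_one' hg
      have h2 : Integrable (fun x => g x • H x) ((μH[m] : Measure E).restrict M) :=
        hH.integrable_smul_left_of_hasCompactSupport hg.continuous hgc
      have h3 : Integrable (fun x => g x • Hv M x) ((μH[m] : Measure E).restrict M) :=
        hM.integrableOn hE (hK _ hgc hgU) inter_subset_right
          (hg.continuous.continuousOn.smul (hM.continuousOn_Hv.mono inter_subset_right))
          fun x hx hx' => by
            rw [image_eq_zero_of_notMem_tsupport fun h4 => hx' ⟨h4, hx⟩, zero_smul]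
      simp only [Pi.sub_apply, smul_sub]
      rw [integral_sub h2 h3, sub_eq_zero]
      refine ext_inner_left ℝ fun v => ?_
      rw [← integral_inner h2, ← integral_inner h3]
      have hX : ContDiff ℝ 1 fun z => g z • v := hg1.smul contDiff_const
      have h4 := h.fv _ hX (hgc.smul_right (f' := fun _ => v))
      have h5 := hM.first_variation hE (fun x _ => hX.contDiffAt) (hK _ hgc hgU) inter_subset_right
        fun x hx hx' => by rw [image_eq_zero_of_notMem_tsupport fun h4 => hx' ⟨h4, hx⟩, zero_smul]
      rw [integral_congr_ae (g := divM M fun z => g z • v)] at h4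
      · simp only [real_inner_smul_left] at h4 h5
        simp only [real_inner_smul_right]
        linarith
      · filter_upwards [hM.tan_unique hE h, ae_restrict_mem hM.measurableSet] with x h6 hx
        rw [h6, hM.divM_eq_divAlong hx]
  refine ⟨U, hw.isOpen.mem_nhds hpU, h1.mono fun x h2 hx => sub_eq_zero.1 (h2 hx)⟩

theorem Surf.vel_unique (hE : Module.finrank ℝ E = m + 1) (hM : Surf M)
    (h : MC m ((μH[m] : Measure E).restrict M) T H) :
    ∀ᵐ x ∂(μH[m] : Measure E).restrict M, vel T H x = vel (tanP M) (Hv M) x := by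
  filter_upwards [hM.tan_unique hE h, hM.mean_unique hE h] with x h1 h2
  rw [vel, vel, h1, h2]

theorem Surf.dis_unique (hE : Module.finrank ℝ E = m + 1) (hM : Surf M)
    (h : MC m ((μH[m] : Measure E).restrict M) T H) :
    dis ((μH[m] : Measure E).restrict M) T H
      = dis ((μH[m] : Measure E).restrict M) (tanP M) (Hv M) :=
  integral_congr_ae ((hM.vel_unique hE h).mono fun x hx => by simp only [hx])

end Vale.Agent.P218N.H
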