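import Vale.Agent.P218N.H.Slice

/-! Behaviour of surfaces under similarities of the ambient space. -/

open MeasureTheory Set Filter Topology Metric
open scoped NNReal RealInnerProductSpace ContDiff Pointwise

namespace Vale.Agent.P218N.H

open Vale.Agent.P218.H313
open Vale.Agent.P218.H313.A1 (dil xx)

set_option linter.unusedSectionVars false
set_option linter.unusedVariables false

variable {E : Type*} [NormedAddCommGroup E] [InnerProductSpace ℝ E] [FiniteDimensional ℝ E]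

/-- the similarity `y ↦ x₀ + c Q y` -/
noncomputable def sim (x₀ : E) (c : ℝ) (Q : E ≃ₗᵢ[ℝ] E) (y : E) : E := x₀ + c • Q y

/-- conjugation of an operator by an isometry -/
noncomputable def cj (Q : E ≃ₗᵢ[ℝ] E) (A : E →L[ℝ] E) : E →L[ℝ] E :=
  (Q.symm : E →L[ℝ] E).comp (A.comp (Q : E →L[ℝ] E))

variable {x₀ : E} {c : ℝ} {Q : E ≃ₗᵢ[ℝ] E} {M U : Set E} {w : E → ℝ} {y : E}

lemma cj_apply (A : E →L[ℝ] E) (v : E) : cj Q A v = Q.symm (A (Q v)) := rfl

lemma cj_comp (A B : E →L[ℝ] E) : (cj Q A).comp (cj Q B) = cj Q (A.comp B) := by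
  ext1 v; simp [cj_apply]

lemma tr_cj (A : E →L[ℝ] E) : tr (cj Q A) = tr A := by
  rw [cj, tr_comm, ContinuousLinearMap.comp_assoc]
  congr 1
  ext1 v; simp

lemma cj_refl (A : E →L[ℝ] E) : cj (LinearIsometryEquiv.refl ℝ E) A = A := rfl

lemma perp_symm (n : E) : perp (Q.symm n) = cj Q (perp n) := by
  ext1 v
  rw [cj_apply, perp_apply, perp_apply, map_sub, map_smul, Q.symm_apply_apply,
    ← Q.inner_map_map (Q.symm n), Q.apply_symm_apply]

lemma hasFDerivAt_sim (y : E) : HasFDerivAt (sim x₀ c Q) (c • (Q : E →L[ℝ] E)) y :=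
  ((Q : E →L[ℝ] E).hasFDerivAt.const_smul c).const_add x₀

lemma contDiff_sim {k : WithTop ℕ∞} : ContDiff ℝ k (sim x₀ c Q) :=
  contDiff_const.add ((Q : E →L[ℝ] E).contDiff.const_smul c)

/-- the similarity as a homeomorphism -/
noncomputable def simH (x₀ : E) {c : ℝ} (hc : c ≠ 0) (Q : E ≃ₗᵢ[ℝ] E) : E ≃ₜ E :=
  Q.toHomeomorph.trans ((Homeomorph.smulOfNeZero c hc).trans (Homeomorph.addLeft x₀))

lemma simH_coe (hc : c ≠ 0) : ⇑(simH x₀ hc Q) = sim x₀ c Q := rfl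

lemma grad_sim {F : E → ℝ} (hF : DifferentiableAt ℝ F (sim x₀ c Q y)) :
    grad (fun z => F (sim x₀ c Q z)) y = c • Q.symm (grad F (sim x₀ c Q y)) := by
  refine grad_unique fun v => ?_
  have h1 : HasFDerivAt (fun z => F (sim x₀ c Q z)) _ y := hF.hasFDerivAt.comp y (hasFDerivAt_sim y)
  rw [h1.fderiv, real_inner_smul_left, ← Q.inner_map_map, Q.apply_symm_apply, inner_grad]
  simp

lemma hess_sim {F : E → ℝ} (hF : ContDiff ℝ 2 F) (y : E) :
    fderiv ℝ (grad fun z => F (sim x₀ c Q z)) y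
      = c ^ 2 • cj Q (fderiv ℝ (grad F) (sim x₀ c Q y)) := by
  have h1 : (grad fun z => F (sim x₀ c Q z)) = fun z => c • Q.symm (grad F (sim x₀ c Q z)) :=
    funext fun z => grad_sim (hF.differentiable (by simp) _)
  have h2 := ((Q.symm : E →L[ℝ] E).hasFDerivAt.comp y
    (((contDiff_grad_one hF).differentiable (by simp) _).hasFDerivAt.comp y
      (hasFDerivAt_sim (x₀ := x₀) (c := c) (Q := Q) y))).const_smul c
  have h3 : HasFDerivAt (fun z => c • Q.symm (grad F (sim x₀ c Q z))) _ y := h2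
  rw [h1, h3.fderiv]
  ext1 v
  simp [cj_apply, smul_smul, sq]

lemma nuW_sim (hc : 0 < c) (hw : ContDiff ℝ ∞ w) (y : E) :
    nuW (fun z => w (sim x₀ c Q z)) y = Q.symm (nuW w (sim x₀ c Q y)) := by
  rw [nuW, nuW, grad_sim (hw.differentiable (by simp) _), norm_smul, Q.symm.norm_map, map_smul,
    smul_smul, Real.norm_of_nonneg hc.le, mul_inv, mul_right_comm, inv_mul_cancel₀ hc.ne', one_mul]

lemma PW_sim (hc : 0 < c) (hw : ContDiff ℝ ∞ w) (y : E) :
    PW (fun z => w (sim x₀ c Q z)) y = cj Q (PW w (sim x₀ c Q y)) := by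
  rw [PW, nuW_sim hc hw, perp_symm, PW]

lemma AW_sim (hc : 0 < c) (hw : ContDiff ℝ ∞ w) (y : E) :
    AW (fun z => w (sim x₀ c Q z)) y = c • cj Q (AW w (sim x₀ c Q y)) := by
  rw [AW, AW, PW_sim hc hw, hess_sim (contDiff_two hw), grad_sim (hw.differentiable (by simp) _),
    norm_smul, Q.symm.norm_map, Real.norm_of_nonneg hc.le]
  ext1 v
  simp only [smul_apply, ContinuousLinearMap.comp_apply, cj_apply, map_smul, smul_smul,
    LinearIsometryEquiv.apply_symm_apply]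
  congr 1
  field_simp

lemma LocDef.sim (h : LocDef M U w) (hc : 0 < c) :
    LocDef (sim x₀ c Q ⁻¹' M) (sim x₀ c Q ⁻¹' U) fun z => w (sim x₀ c Q z) where
  isOpen := h.isOpen.preimage (contDiff_sim (k := 0)).continuous
  smooth := h.smooth.comp contDiff_sim
  ne z hz := by
    rw [grad_sim (h.smooth.differentiable (by simp) _)]
    exact smul_ne_zero hc.ne' (by simpa using h.ne _ hz)
  mem_iff z hz := h.mem_iff _ hz

namespace Surf

theorem sim (h : Surf M) (hc : 0 < c) : Surf (sim x₀ c Q ⁻¹' M) := fun p hp => by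
  obtain ⟨w, U, h1, h2⟩ := h _ hp
  exact ⟨_, _, h1, h2.sim hc⟩

theorem PT_sim (h : Surf M) (hc : 0 < c) (hy : H.sim x₀ c Q y ∈ M) :
    PT (H.sim x₀ c Q ⁻¹' M) y = cj Q (PT M (H.sim x₀ c Q y)) := by
  obtain ⟨w, U, h1, h2⟩ := h _ hy
  rw [(h2.sim hc).PT_eq h1 hy, h2.PT_eq h1 hy, PW_sim hc h2.smooth]

theorem Hv_sim (h : Surf M) (hc : 0 < c) (hy : H.sim x₀ c Q y ∈ M) :
    Hv (H.sim x₀ c Q ⁻¹' M) y = c • Q.symm (Hv M (H.sim x₀ c Q y)) := by
  obtain ⟨w, U, h1, h2⟩ := h _ hy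
  rw [(h2.sim hc).Hv_eq h1 hy, h2.Hv_eq h1 hy, AW_sim hc h2.smooth, nuW_sim hc h2.smooth, tr_smul,
    tr_cj, map_smul, smul_smul, mul_neg]

theorem Asq_sim (h : Surf M) (hc : 0 < c) (hy : H.sim x₀ c Q y ∈ M) :
    Asq (H.sim x₀ c Q ⁻¹' M) y = c ^ 2 * Asq M (H.sim x₀ c Q y) := by
  obtain ⟨w, U, h1, h2⟩ := h _ hy
  rw [(h2.sim hc).Asq_eq h1 hy, h2.Asq_eq h1 hy, AW_sim hc h2.smooth,
    ContinuousLinearMap.smul_comp, ContinuousLinearMap.comp_smul, tr_smul, tr_smul, cj_comp, tr_cj]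
  ring

theorem Kg_sim (h : Surf M) (hc : 0 < c) (hy : H.sim x₀ c Q y ∈ M) :
    Kg (H.sim x₀ c Q ⁻¹' M) y = c ^ 2 * Kg M (H.sim x₀ c Q y) := by
  have h1 := (h.sim (x₀ := x₀) (Q := Q) hc).Asq_eq hy
  rw [h.Asq_sim hc hy, h.Hv_sim hc hy, h.Asq_eq hy, norm_smul, Q.symm.norm_map,
    Real.norm_of_nonneg hc.le] at h1
  linarith

theorem exists_nu_sim (h : Surf M) (hc : 0 < c) (hy : H.sim x₀ c Q y ∈ M) :
    ∃ σ : ℝ, σ * σ = 1 ∧ nu (H.sim x₀ c Q ⁻¹' M) y = σ • Q.symm (nu M (H.sim x₀ c Q y)) ∧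
      sff (H.sim x₀ c Q ⁻¹' M) y = (σ * c) • cj Q (sff M (H.sim x₀ c Q y)) := by
  obtain ⟨U, h1, h2⟩ := h.dfn_spec hy
  obtain ⟨σ, h3, h4, h5⟩ := (h2.sim hc).exists_sign h1 hy
  exact ⟨σ, h3, by rw [h4, nuW_sim hc h2.smooth, nu],
    by rw [h5, AW_sim hc h2.smooth, smul_smul, sff]⟩

theorem norm_sff_sim (h : Surf M) (hc : 0 < c) (hy : H.sim x₀ c Q y ∈ M) :
    ‖sff (H.sim x₀ c Q ⁻¹' M) y‖ = c * ‖sff M (H.sim x₀ c Q y)‖ := by
  obtain ⟨σ, h1, -, h2⟩ := h.exists_nu_sim hc hy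
  have h3 : |σ| = 1 := by rcases mul_self_eq_one_iff.1 h1 with h | h <;> simp [h]
  rw [h2, norm_smul, Real.norm_eq_abs, abs_mul, h3, one_mul, abs_of_pos hc, cj]
  congr 1
  exact (Q.symm.toLinearIsometry.norm_toContinuousLinearMap_comp).trans
    (ContinuousLinearMap.opNorm_comp_linearIsometryEquiv _ Q)

end Surf

variable [MeasurableSpace E] [BorelSpace E] {m : ℕ}

lemma measure_sim_image (hc : 0 < c) (s : Set E) :
    (μH[m] : Measure E) (sim x₀ c Q '' s) = ENNReal.ofReal (c ^ m) * μH[m] s := by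
  have h1 : sim x₀ c Q '' s = (fun z => x₀ + z) '' (c • (Q '' s)) := by
    rw [← image_smul, image_image, image_image]; rfl
  rw [h1, (isometry_add_left x₀).hausdorffMeasure_image (Or.inl (Nat.cast_nonneg m)),
    Measure.hausdorffMeasure_smul₀ (Nat.cast_nonneg m) hc.ne',
    Q.isometry.hausdorffMeasure_image (Or.inl (Nat.cast_nonneg m)), NNReal.rpow_natCast,
    ENNReal.smul_def, smul_eq_mul]
  congr 1
  rw [ENNReal.ofReal_pow hc.le, ENNReal.coe_pow, ← Real.enorm_of_nonneg hc.le]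
  rfl

theorem map_sim (hc : 0 < c) (M : Set E) :
    ENNReal.ofReal (c ^ m) • ((μH[m] : Measure E).restrict (sim x₀ c Q ⁻¹' M)).map (sim x₀ c Q)
      = (μH[m] : Measure E).restrict M := by
  have he : MeasurableEmbedding (sim x₀ c Q) := (simH x₀ hc.ne' Q).measurableEmbedding
  ext s hs
  rw [Measure.smul_apply, he.map_apply, Measure.restrict_apply (he.measurable hs),
    Measure.restrict_apply hs, smul_eq_mul, ← measure_sim_image (x₀ := x₀) (Q := Q) hc,
    ← preimage_inter, image_preimage_eq (f := sim x₀ c Q) _ (simH x₀ hc.ne' Q).surjective]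

theorem integral_sim {F : Type*} [NormedAddCommGroup F] [NormedSpace ℝ F] (hc : 0 < c) (M : Set E)
    (g : E → F) : ∫ x in M, g x ∂μH[m]
      = c ^ m • ∫ y in sim x₀ c Q ⁻¹' M, g (sim x₀ c Q y) ∂μH[m] := by
  have he : MeasurableEmbedding (sim x₀ c Q) := (simH x₀ hc.ne' Q).measurableEmbedding
  rw [← map_sim (x₀ := x₀) (Q := Q) hc M, integral_smul_measure, he.integral_map,
    ENNReal.toReal_ofReal (by positivity)]

lemma xx_eq_sim (lam : ℝ) (x₀ : E) : xx lam x₀ = sim x₀ lam⁻¹ (LinearIsometryEquiv.refl ℝ E) := rfl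

/-- the dilated measure of a surface is the measure of the dilated surface -/
theorem dil_restrict {lam : ℝ} (hl : 0 < lam) (x₀ : E) (M : Set E) :
    dil m lam x₀ ((μH[m] : Measure E).restrict M)
      = (μH[m] : Measure E).restrict (xx lam x₀ ⁻¹' M) := by
  have h1 := map_sim (m := m) (x₀ := x₀) (Q := LinearIsometryEquiv.refl ℝ E) (inv_pos.2 hl) M
  have he : MeasurableEmbedding (sim x₀ lam⁻¹ (LinearIsometryEquiv.refl ℝ E)) :=
    (simH x₀ (inv_pos.2 hl).ne' (LinearIsometryEquiv.refl ℝ E)).measurableEmbedding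
  rw [dil, ← h1, Measure.map_smul, smul_smul, ← ENNReal.ofReal_mul (by positivity), ← mul_pow,
    mul_inv_cancel₀ hl.ne', one_pow, ENNReal.ofReal_one, one_smul,
    Measure.map_map (A1.emb_yy hl x₀).measurable he.measurable, ← xx_eq_sim]
  have h2 : ((fun x : E => lam • (x - x₀)) ∘ xx lam x₀) = id := funext fun y => A1.yy_xx hl x₀ y
  rw [h2, Measure.map_id]

end Vale.Agent.P218N.H
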