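import Vale.Agent.P218N.H.Indep

/-! Basic properties of `Surf`: algebra of the shape operator, continuity, locality. -/

open MeasureTheory Set Filter Topology Metric
open scoped NNReal RealInnerProductSpace ContDiff

namespace Vale.Agent.P218N.H

open Vale.Agent.P218.H313
open Vale.Agent.P214 (proj divAlong)

set_option linter.unusedSectionVars false
set_option linter.unusedVariables false

variable {E : Type*} [NormedAddCommGroup E] [InnerProductSpace ℝ E] [FiniteDimensional ℝ E]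
variable {M M' U : Set E} {w : E → ℝ} {x : E}

/-! ### linear algebra -/

lemma tr_comp_self_eq {A : E →L[ℝ] E} (hA : ∀ u v, ⟪A u, v⟫ = ⟪u, A v⟫) {ι : Type*} [Fintype ι]
    (b : OrthonormalBasis ι ℝ E) : tr (A.comp A) = ∑ i, ‖A (b i)‖ ^ 2 := by
  unfold tr
  rw [LinearMap.trace_eq_sum_inner _ b]
  refine Finset.sum_congr rfl fun i _ => ?_
  change ⟪b i, A (A (b i))⟫ = _
  rw [← hA, real_inner_self_eq_norm_sq]

lemma tr_comp_self_nonneg {A : E →L[ℝ] E} (hA : ∀ u v, ⟪A u, v⟫ = ⟪u, A v⟫) :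
    0 ≤ tr (A.comp A) := by
  rw [tr_comp_self_eq hA (stdOrthonormalBasis ℝ E)]
  positivity

lemma norm_apply_sq_le {A : E →L[ℝ] E} (hA : ∀ u v, ⟪A u, v⟫ = ⟪u, A v⟫) (v : E) :
    ‖A v‖ ^ 2 ≤ tr (A.comp A) * ‖v‖ ^ 2 := by
  set b := stdOrthonormalBasis ℝ E
  rw [tr_comp_self_eq hA b, ← b.sum_sq_norm_inner_right (A v), Finset.sum_mul]
  refine Finset.sum_le_sum fun i _ => ?_
  rw [← hA, ← mul_pow]
  exact pow_le_pow_left₀ (norm_nonneg _) (norm_inner_le_norm _ _) 2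

lemma norm_sq_le_tr {A : E →L[ℝ] E} (hA : ∀ u v, ⟪A u, v⟫ = ⟪u, A v⟫) :
    ‖A‖ ^ 2 ≤ tr (A.comp A) := by
  have h0 := tr_comp_self_nonneg hA
  have : ‖A‖ ≤ √(tr (A.comp A)) := by
    refine A.opNorm_le_bound (Real.sqrt_nonneg _) fun v => ?_
    refine le_of_sq_le_sq ?_ (by positivity)
    rw [mul_pow, Real.sq_sqrt h0]
    exact norm_apply_sq_le hA v
  calc ‖A‖ ^ 2 ≤ √(tr (A.comp A)) ^ 2 := by gcongr
    _ = _ := Real.sq_sqrt h0

lemma tr_comp_self_le (A : E →L[ℝ] E) : tr (A.comp A) ≤ Module.finrank ℝ E * ‖A‖ ^ 2 := by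
  refine (le_abs_self _).trans ((abs_tr_le _).trans ?_)
  have := A.opNorm_comp_le A
  rw [sq]
  gcongr

/-! ### pointwise algebra on a surface -/

namespace Surf

lemma dfn_spec (h : Surf M) (hx : x ∈ M) : ∃ U, x ∈ U ∧ LocDef M U (dfn M x) := by
  obtain ⟨w, U, h1, h2⟩ := h x hx
  exact h2.dfn_spec h1

lemma grad_dfn_ne (h : Surf M) (hx : x ∈ M) : grad (dfn M x) x ≠ 0 := by
  obtain ⟨U, h1, h2⟩ := h.dfn_spec hx
  exact h2.ne x h1

lemma norm_nu (h : Surf M) (hx : x ∈ M) : ‖nu M x‖ = 1 := norm_nuW (h.grad_dfn_ne hx)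

end Surf

lemma PT_def (M : Set E) (x : E) : PT M x = perp (nu M x) := rfl

lemma PT_apply (M : Set E) (x v : E) : PT M x v = v - ⟪nu M x, v⟫ • nu M x := perp_apply _ _

lemma PT_symm (M : Set E) (x u v : E) : ⟪PT M x u, v⟫ = ⟪u, PT M x v⟫ := inner_perp_left _ _ _

lemma mem_tanP {v : E} : v ∈ tanP M x ↔ ⟪nu M x, v⟫ = 0 :=
  Submodule.mem_orthogonal_singleton_iff_inner_right

lemma Asq_eq_sub (M : Set E) (x : E) : Asq M x = tr (sff M x) ^ 2 - 2 * Kg M x := by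
  rw [Kg]; ring

namespace Surf

lemma proj_tanP (h : Surf M) (hx : x ∈ M) : proj (tanP M x) = PT M x := proj_eq_perp (h.norm_nu hx)

lemma finrank_tanP (h : Surf M) (hx : x ∈ M) {m : ℕ} (hE : Module.finrank ℝ E = m + 1) :
    Module.finrank ℝ (tanP M x) = m := by
  have h0 : nu M x ≠ 0 := by
    intro h0
    have := h.norm_nu hx
    rw [h0, norm_zero] at this
    exact zero_ne_one this
  have : Fact (Module.finrank ℝ E = m + 1) := ⟨hE⟩
  exact Submodule.finrank_orthogonal_span_singleton h0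

lemma divM_eq_divAlong (h : Surf M) (hx : x ∈ M) (X : E → E) :
    divM M X x = divAlong (tanP M x) X x := by
  rw [divAlong_eq, h.proj_tanP hx, divM]

lemma PT_PT (h : Surf M) (hx : x ∈ M) (v : E) : PT M x (PT M x v) = PT M x v :=
  perp_perp (h.norm_nu hx) v

lemma PT_nu (h : Surf M) (hx : x ∈ M) : PT M x (nu M x) = 0 := perp_self (h.norm_nu hx)

lemma inner_nu_PT (h : Surf M) (hx : x ∈ M) (v : E) : ⟪nu M x, PT M x v⟫ = 0 :=
  inner_perp (h.norm_nu hx) v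

lemma norm_PT_apply_le (h : Surf M) (hx : x ∈ M) (v : E) : ‖PT M x v‖ ≤ ‖v‖ :=
  norm_perp_apply_le (h.norm_nu hx) v

lemma norm_PT_le (h : Surf M) (hx : x ∈ M) : ‖PT M x‖ ≤ 1 := norm_perp_le (h.norm_nu hx)

lemma sff_symm (h : Surf M) (hx : x ∈ M) (u v : E) : ⟪sff M x u, v⟫ = ⟪u, sff M x v⟫ := by
  obtain ⟨U, h1, h2⟩ := h.dfn_spec hx
  exact AW_symm h2.smooth x u v

lemma PT_sff (h : Surf M) (hx : x ∈ M) (v : E) : PT M x (sff M x v) = sff M x v :=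
  PW_AW (h.grad_dfn_ne hx) v

lemma sff_PT (h : Surf M) (hx : x ∈ M) (v : E) : sff M x (PT M x v) = sff M x v :=
  AW_PW (h.grad_dfn_ne hx) v

lemma sff_nu (h : Surf M) (hx : x ∈ M) : sff M x (nu M x) = 0 := by
  rw [← h.sff_PT hx, h.PT_nu hx, map_zero]

lemma norm_Hv (h : Surf M) (hx : x ∈ M) : ‖Hv M x‖ = |tr (sff M x)| := by
  rw [Hv, norm_smul, h.norm_nu hx, mul_one, Real.norm_eq_abs, abs_neg]

lemma norm_Hv_sq (h : Surf M) (hx : x ∈ M) : ‖Hv M x‖ ^ 2 = tr (sff M x) ^ 2 := by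
  rw [h.norm_Hv hx, sq_abs]

lemma PT_Hv (h : Surf M) (hx : x ∈ M) : PT M x (Hv M x) = 0 := by
  rw [Hv, map_smul, h.PT_nu hx, smul_zero]

lemma Hv_mem (M : Set E) (x : E) : Hv M x ∈ (tanP M x)ᗮ :=
  Submodule.le_orthogonal_orthogonal _
    (Submodule.smul_mem _ _ (Submodule.mem_span_singleton_self _))

lemma Asq_nonneg (h : Surf M) (hx : x ∈ M) : 0 ≤ Asq M x := tr_comp_self_nonneg (h.sff_symm hx)

lemma norm_sff_sq_le (h : Surf M) (hx : x ∈ M) : ‖sff M x‖ ^ 2 ≤ Asq M x :=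
  norm_sq_le_tr (h.sff_symm hx)

lemma Asq_le (M : Set E) (x : E) : Asq M x ≤ Module.finrank ℝ E * ‖sff M x‖ ^ 2 :=
  tr_comp_self_le _

lemma Asq_eq (h : Surf M) (hx : x ∈ M) : Asq M x = ‖Hv M x‖ ^ 2 - 2 * Kg M x := by
  rw [h.norm_Hv_sq hx, Asq_eq_sub]

lemma hessM_symm (h : Surf M) (hx : x ∈ M) {F : E → ℝ} (hF : ContDiff ℝ 2 F) (u v : E) :
    ⟪hessM M F x u, v⟫ = ⟪u, hessM M F x v⟫ := by
  simp only [hessM, sub_apply, smul_apply, ContinuousLinearMap.comp_apply, inner_sub_left,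
    inner_sub_right, real_inner_smul_left, real_inner_smul_right]
  rw [h.sff_symm hx, PT_symm, hess_symm hF, PT_symm]

/-! ### locality -/

lemma inter_open (h : Surf M) (hU : IsOpen U) : Surf (M ∩ U) := by
  rintro p ⟨hp, hpU⟩
  obtain ⟨w, V, h1, h2⟩ := h p hp
  refine ⟨w, V ∩ U, ⟨h1, hpU⟩, (h2.mono (h2.isOpen.inter hU) inter_subset_left).congr ?_⟩
  exact fun y hy => ⟨fun h3 => h3.1, fun h3 => ⟨h3, hy.2⟩⟩

/-- a set which is locally a surface is a surface -/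
lemma of_locally (h : ∀ p ∈ M, ∃ M', Surf M' ∧ ∀ᶠ y in 𝓝 p, y ∈ M ↔ y ∈ M') : Surf M := by
  intro p hp
  obtain ⟨M', h1, h2⟩ := h p hp
  obtain ⟨w, V, h3, h4⟩ := h1 p (h2.self_of_nhds.1 hp)
  obtain ⟨O, h5, h6, h7⟩ := _root_.mem_nhds_iff.1 h2
  exact ⟨w, V ∩ O, ⟨h3, h7⟩, (h4.mono (h4.isOpen.inter h6) inter_subset_left).congr
    fun y hy => h5 hy.2⟩

/-- a common defining function for two sets which agree near `x` -/
lemma common (h : Surf M) (hx : x ∈ M) (he : ∀ᶠ y in 𝓝 x, y ∈ M' ↔ y ∈ M) :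
    ∃ w U, x ∈ U ∧ x ∈ M' ∧ LocDef M U w ∧ LocDef M' U w := by
  obtain ⟨w, V, h3, h4⟩ := h x hx
  obtain ⟨O, h5, h6, h7⟩ := _root_.mem_nhds_iff.1 he
  have h8 := h4.mono (h4.isOpen.inter h6) inter_subset_left
  exact ⟨w, V ∩ O, ⟨h3, h7⟩, he.self_of_nhds.2 hx, h8, h8.congr fun y hy => h5 hy.2⟩

lemma PT_congr (h : Surf M) (hx : x ∈ M) (he : ∀ᶠ y in 𝓝 x, y ∈ M' ↔ y ∈ M) :
    PT M' x = PT M x := by
  obtain ⟨w, U, h1, h2, h3, h4⟩ := h.common hx he
  rw [h3.PT_eq h1 hx, h4.PT_eq h1 h2]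

lemma Hv_congr (h : Surf M) (hx : x ∈ M) (he : ∀ᶠ y in 𝓝 x, y ∈ M' ↔ y ∈ M) :
    Hv M' x = Hv M x := by
  obtain ⟨w, U, h1, h2, h3, h4⟩ := h.common hx he
  rw [h3.Hv_eq h1 hx, h4.Hv_eq h1 h2]

lemma Asq_congr (h : Surf M) (hx : x ∈ M) (he : ∀ᶠ y in 𝓝 x, y ∈ M' ↔ y ∈ M) :
    Asq M' x = Asq M x := by
  obtain ⟨w, U, h1, h2, h3, h4⟩ := h.common hx he
  rw [h3.Asq_eq h1 hx, h4.Asq_eq h1 h2]

lemma Kg_congr (h : Surf M) (hx : x ∈ M) (he : ∀ᶠ y in 𝓝 x, y ∈ M' ↔ y ∈ M) :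
    Kg M' x = Kg M x := by
  obtain ⟨w, U, h1, h2, h3, h4⟩ := h.common hx he
  rw [h3.Kg_eq h1 hx, h4.Kg_eq h1 h2]

lemma hessM_congr (h : Surf M) (hx : x ∈ M) (he : ∀ᶠ y in 𝓝 x, y ∈ M' ↔ y ∈ M) (F : E → ℝ) :
    hessM M' F x = hessM M F x := by
  obtain ⟨w, U, h1, h2, h3, h4⟩ := h.common hx he
  rw [h3.hessM_eq h1 hx, h4.hessM_eq h1 h2]

lemma tanP_congr (h : Surf M) (hx : x ∈ M) (he : ∀ᶠ y in 𝓝 x, y ∈ M' ↔ y ∈ M) :
    tanP M' x = tanP M x := by
  obtain ⟨w, U, h1, h2, h3, h4⟩ := h.common hx he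
  rw [h3.tanP_eq h1 hx, h4.tanP_eq h1 h2]

lemma isLocallyClosed (h : Surf M) : IsLocallyClosed M := by
  refine ((isLocallyClosed_tfae M).out 0 2).2 fun p hp => ?_
  obtain ⟨w, U, h1, h2⟩ := h p hp
  obtain ⟨r, hr, hb⟩ := nhds_basis_closedBall.mem_iff.1 (h2.isOpen.mem_nhds h1)
  refine ⟨closedBall p r, closedBall_mem_nhds p hr, ?_⟩
  have : (Subtype.val ⁻¹' M : Set (closedBall p r)) = {y | w y.1 = 0} := by
    ext y; exact h2.mem_iff y.1 (hb y.2)
  rw [this]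
  exact isClosed_eq (h2.smooth.continuous.comp continuous_subtype_val) continuous_const

lemma measurableSet [MeasurableSpace E] [BorelSpace E] (h : Surf M) : MeasurableSet M := by
  obtain ⟨U, Z, hU, hZ, rfl⟩ := h.isLocallyClosed
  exact hU.measurableSet.inter hZ.measurableSet

/-! ### tangential derivatives -/

/-- functions which agree on `M` have the same tangential derivatives -/
theorem fderiv_comp_PT {F : Type*} [NormedAddCommGroup F] [NormedSpace ℝ F] (h : Surf M)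
    (hx : x ∈ M) {f g : E → F} (hf : DifferentiableAt ℝ f x) (hg : DifferentiableAt ℝ g x)
    (hfg : ∀ᶠ y in 𝓝[M] x, f y = g y) :
    (fderiv ℝ f x).comp (PT M x) = (fderiv ℝ g x).comp (PT M x) := by
  obtain ⟨U, h1, h2⟩ := h.dfn_spec hx
  exact h2.fderiv_comp_PW h1 hx hf hg hfg

theorem divM_congr (h : Surf M) (hx : x ∈ M) {X Y : E → E} (hX : DifferentiableAt ℝ X x)
    (hY : DifferentiableAt ℝ Y x) (hXY : ∀ᶠ y in 𝓝[M] x, X y = Y y) :
    divM M X x = divM M Y x := by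
  rw [divM, divM, tr_comm, tr_comm (PT M x), h.fderiv_comp_PT hx hX hY hXY]

theorem gradM_congr (h : Surf M) (hx : x ∈ M) {F G : E → ℝ} (hF : DifferentiableAt ℝ F x)
    (hG : DifferentiableAt ℝ G x) (hFG : ∀ᶠ y in 𝓝[M] x, F y = G y) :
    gradM M F x = gradM M G x := by
  refine ext_inner_right ℝ fun v => ?_
  rw [gradM, gradM, PT_symm, PT_symm, inner_grad, inner_grad]
  exact congrArg (fun L : E →L[ℝ] ℝ => L v) (h.fderiv_comp_PT hx hF hG hFG)

theorem exists_curve (h : Surf M) (hx : x ∈ M) {v : E} (hv : ⟪nu M x, v⟫ = 0) :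
    ∃ γ : ℝ → E, γ 0 = x ∧ HasDerivAt γ v 0 ∧ ContDiffAt ℝ ∞ γ 0 ∧ ∀ᶠ t in 𝓝 (0 : ℝ), γ t ∈ M := by
  obtain ⟨U, h1, h2⟩ := h.dfn_spec hx
  refine h2.exists_curve h1 hx ?_
  rw [grad_eq_smul_nuW, real_inner_smul_left]
  exact mul_eq_zero_of_right _ hv

/-- curves in `M` are tangent to `M` -/
theorem inner_nu_deriv (h : Surf M) {γ : ℝ → E} {t : ℝ} {v : E} (hγ : HasDerivAt γ v t)
    (hM : ∀ᶠ s in 𝓝 t, γ s ∈ M) : ⟪nu M (γ t), v⟫ = 0 := by
  obtain ⟨U, h1, h2⟩ := h.dfn_spec hM.self_of_nhds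
  have h3 := (h2.smooth.differentiable (by simp) (γ t)).hasFDerivAt.comp_hasDerivAt t hγ
  have h4 : (dfn M (γ t) ∘ γ) =ᶠ[𝓝 t] fun _ => 0 := by
    filter_upwards [hM, hγ.continuousAt.eventually (h2.isOpen.mem_nhds h1)] with s h5 h6
    exact h2.zero h6 h5
  have h5 := (h3.congr_of_eventuallyEq h4.symm).unique (hasDerivAt_const t (0 : ℝ))
  rw [nu, nuW, real_inner_smul_left, inner_grad, h5, mul_zero]

lemma divM_smul (h : Surf M) (hx : x ∈ M) {F : E → ℝ} {X : E → E}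
    (hF : DifferentiableAt ℝ F x) (hX : DifferentiableAt ℝ X x) :
    divM M (fun z => F z • X z) x = F x * divM M X x + ⟪gradM M F x, X x⟫ := by
  rw [h.divM_eq_divAlong hx, h.divM_eq_divAlong hx, divAlong_smul _ hF hX, h.proj_tanP hx, gradM]

lemma divM_add (M : Set E) {X Y : E → E} (hX : DifferentiableAt ℝ X x)
    (hY : DifferentiableAt ℝ Y x) : divM M (fun z => X z + Y z) x = divM M X x + divM M Y x := by
  have h1 : HasFDerivAt (fun z => X z + Y z) (fderiv ℝ X x + fderiv ℝ Y x) x :=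
    hX.hasFDerivAt.add hY.hasFDerivAt
  rw [divM, divM, divM, h1.fderiv, ContinuousLinearMap.comp_add, tr_add]

/-! ### continuity -/

/-- a quantity given locally by a continuous formula is continuous on `M` -/
lemma continuousOn_of_loc {F : Type*} [TopologicalSpace F] (h : Surf M) {q : E → F}
    (Q : (E → ℝ) → E → F) {S : Set E} (hS : S ⊆ M)
    (h1 : ∀ w U, LocDef M U w → ∀ y ∈ U, y ∈ M → q y = Q w y)
    (h2 : ∀ w U, LocDef M U w → ∀ y ∈ U, y ∈ S → ContinuousAt (Q w) y) : ContinuousOn q S := by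
  intro x hx
  obtain ⟨w, U, h3, h4⟩ := h x (hS hx)
  refine (h2 w U h4 x h3 hx).continuousWithinAt.congr_of_eventuallyEq ?_ (h1 w U h4 x h3 (hS hx))
  filter_upwards [self_mem_nhdsWithin, mem_nhdsWithin_of_mem_nhds (h4.isOpen.mem_nhds h3)]
    with y hy hyU
  exact h1 w U h4 y hyU (hS hy)

lemma continuousAt_tr {X : Type*} [TopologicalSpace X] {A : X → E →L[ℝ] E} {p : X}
    (hA : ContinuousAt A p) : ContinuousAt (fun y => tr (A y)) p :=
  (trL E).continuous.continuousAt.comp hA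

lemma continuousOn_tr {X : Type*} [TopologicalSpace X] {A : X → E →L[ℝ] E} {S : Set X}
    (hA : ContinuousOn A S) : ContinuousOn (fun y => tr (A y)) S :=
  (trL E).continuous.comp_continuousOn hA

lemma continuousOn_PT (h : Surf M) : ContinuousOn (PT M) M :=
  h.continuousOn_of_loc PW subset_rfl (fun _ _ h1 _ h2 h3 => h1.PT_eq h2 h3)
    fun _ _ h1 y h2 _ => (contDiffAt_PW h1.smooth (h1.ne y h2)).continuousAt

lemma continuousOn_Hv (h : Surf M) : ContinuousOn (Hv M) M :=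
  h.continuousOn_of_loc (fun w y => -(tr (AW w y)) • nuW w y) subset_rfl
    (fun _ _ h1 _ h2 h3 => h1.Hv_eq h2 h3) fun _ _ h1 y h2 _ =>
      (continuousAt_tr (contDiffAt_AW h1.smooth (h1.ne y h2)).continuousAt).neg.smul
        (contDiffAt_nuW h1.smooth (h1.ne y h2)).continuousAt

lemma continuousOn_Asq (h : Surf M) : ContinuousOn (Asq M) M :=
  h.continuousOn_of_loc (fun w y => tr ((AW w y).comp (AW w y))) subset_rfl
    (fun _ _ h1 _ h2 h3 => h1.Asq_eq h2 h3) fun _ _ h1 y h2 _ =>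
      continuousAt_tr ((contDiffAt_AW h1.smooth (h1.ne y h2)).clm_comp
        (contDiffAt_AW h1.smooth (h1.ne y h2))).continuousAt

lemma continuousOn_Kg (h : Surf M) : ContinuousOn (Kg M) M := by
  have h1 : ContinuousOn (fun y => (‖Hv M y‖ ^ 2 - Asq M y) / 2) M :=
    ((h.continuousOn_Hv.norm.pow 2).sub h.continuousOn_Asq).div_const 2
  refine h1.congr fun y hy => ?_
  simp only [h.Asq_eq hy]; ring

lemma continuousOn_norm_sff (h : Surf M) : ContinuousOn (fun y => ‖sff M y‖) M :=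
  h.continuousOn_of_loc (fun w y => ‖AW w y‖) subset_rfl
    (fun _ _ h1 _ h2 h3 => h1.norm_sff_eq h2 h3) fun _ _ h1 y h2 _ =>
      (contDiffAt_AW h1.smooth (h1.ne y h2)).continuousAt.norm

lemma continuousOn_gradM (h : Surf M) {F : E → ℝ} (hF : ContDiff ℝ 1 F) :
    ContinuousOn (gradM M F) M :=
  h.continuousOn_PT.clm_apply (continuous_grad hF).continuousOn

lemma continuousOn_divM (h : Surf M) {X : E → E} (hX : ContDiff ℝ 1 X) :
    ContinuousOn (divM M X) M :=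
  continuousOn_tr (h.continuousOn_PT.clm_comp (hX.continuous_fderiv (by simp)).continuousOn)

lemma continuousOn_hessM (h : Surf M) {F : E → ℝ} (hF : ContDiff ℝ 2 F) :
    ContinuousOn (hessM M F) M := by
  have hg := contDiff_grad_one hF
  refine h.continuousOn_of_loc (fun w y => (PW w y).comp ((fderiv ℝ (grad F) y).comp (PW w y))
      - ⟪grad F y, nuW w y⟫ • AW w y) subset_rfl
    (fun _ _ h1 _ h2 h3 => h1.hessM_eq h2 h3 F) fun w _ h1 y h2 _ => ?_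
  have h3 := (contDiffAt_PW h1.smooth (h1.ne y h2)).continuousAt
  exact (h3.clm_comp ((hg.continuous_fderiv (by simp)).continuousAt.clm_comp h3)).sub
    ((hg.continuous.continuousAt.inner (𝕜 := ℝ)
      (contDiffAt_nuW h1.smooth (h1.ne y h2)).continuousAt).smul
      (contDiffAt_AW h1.smooth (h1.ne y h2)).continuousAt)

lemma continuousOn_kterm (h : Surf M) {F : E → ℝ} (hF : ContDiff ℝ 2 F) :
    ContinuousOn (kterm M F) {y ∈ M | gradM M F y ≠ 0} := by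
  have h1 : ContinuousOn (gradM M F) {y ∈ M | gradM M F y ≠ 0} :=
    (h.continuousOn_gradM (hF.of_le (by norm_num))).mono fun y hy => hy.1
  have h2 : ContinuousOn (conM M F) {y ∈ M | gradM M F y ≠ 0} :=
    (h1.norm.inv₀ fun y hy => norm_ne_zero_iff.2 hy.2).smul h1
  have h3 : ContinuousOn (hessM M F) {y ∈ M | gradM M F y ≠ 0} :=
    (h.continuousOn_hessM hF).mono fun y hy => hy.1
  exact ((continuousOn_tr h3).sub ((h3.clm_apply h2).inner (𝕜 := ℝ) h2)).neg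

end Surf

/-! ### producing defining functions -/

/-- a product with a cut-off function is smooth -/
lemma contDiff_cut_smul {X F : Type*} [NormedAddCommGroup X] [NormedSpace ℝ X]
    [NormedAddCommGroup F] [NormedSpace ℝ F] {k : WithTop ℕ∞} {χ : X → ℝ} {f : X → F}
    (hχ : ContDiff ℝ k χ) (hf : ∀ y ∈ tsupport χ, ContDiffAt ℝ k f y) :
    ContDiff ℝ k fun y => χ y • f y := by
  refine contDiff_iff_contDiffAt.2 fun y => ?_
  by_cases hy : y ∈ tsupport χ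
  · exact hχ.contDiffAt.smul (hf y hy)
  · refine (contDiffAt_const (c := (0 : F))).congr_of_eventuallyEq ?_
    filter_upwards [notMem_tsupport_iff_eventuallyEq.1 hy] with z hz
    simp [hz]

/-- cut-off functions -/
lemma exists_cut {X : Type*} [NormedAddCommGroup X] [NormedSpace ℝ X] [FiniteDimensional ℝ X]
    {O : Set X} {p : X} (hO : O ∈ 𝓝 p) :
    ∃ χ : X → ℝ, ContDiff ℝ ∞ χ ∧ HasCompactSupport χ ∧ tsupport χ ⊆ O ∧ (∀ y, 0 ≤ χ y) ∧
      (∀ y, χ y ≤ 1) ∧ ∀ᶠ y in 𝓝 p, χ y = 1 := by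
  obtain ⟨r, hr, hb⟩ := nhds_basis_closedBall.mem_iff.1 hO
  let c : ContDiffBump p := ⟨r / 2, r, half_pos hr, half_lt_self hr⟩
  exact ⟨c, c.contDiff, c.hasCompactSupport, c.tsupport_eq ▸ hb, fun y => c.nonneg,
    fun y => c.le_one, c.eventuallyEq_one⟩

/-- a function which is smooth near `p` agrees near `p` with a globally smooth function -/
lemma exists_global {X F : Type*} [NormedAddCommGroup X] [NormedSpace ℝ X] [FiniteDimensional ℝ X]
    [NormedAddCommGroup F] [NormedSpace ℝ F] {k : ℕ∞} {f : X → F} {p : X}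
    (hf : ∀ᶠ y in 𝓝 p, ContDiffAt ℝ k f y) : ∃ g : X → F, ContDiff ℝ k g ∧ g =ᶠ[𝓝 p] f := by
  obtain ⟨χ, h1, -, h3, -, -, h6⟩ := exists_cut hf
  refine ⟨fun y => χ y • f y, contDiff_cut_smul (h1.of_le (by exact_mod_cast le_top))
    fun y hy => h3 hy, ?_⟩
  filter_upwards [h6] with y hy
  simp [hy]

lemma grad_congr {f g : E → ℝ} (h : f =ᶠ[𝓝 x] g) : grad f x = grad g x := by
  unfold grad; rw [h.fderiv_eq]

/-- a defining function which is only smooth near the point -/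
theorem exists_locDef {f : E → ℝ} (hf : ∀ᶠ y in 𝓝 x, ContDiffAt ℝ ∞ f y)
    (hne : fderiv ℝ f x ≠ 0) (hM : ∀ᶠ y in 𝓝 x, y ∈ M ↔ f y = 0) :
    ∃ w U, x ∈ U ∧ LocDef M U w ∧ ∀ y ∈ U, w =ᶠ[𝓝 y] f := by
  obtain ⟨w, h1, h2⟩ := exists_global hf
  have h3 : grad w x ≠ 0 := by
    rw [← norm_ne_zero_iff, norm_grad, h2.fderiv_eq, norm_ne_zero_iff]; exact hne
  have h4 : ∀ᶠ y in 𝓝 x, grad w y ≠ 0 :=
    (contDiff_grad_top h1).continuous.continuousAt.eventually_ne h3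
  obtain ⟨U, h5, h6, h7⟩ := _root_.mem_nhds_iff.1 (h4.and (hM.and h2.eventually_nhds))
  refine ⟨w, U, h7, ⟨h6, h1, fun y hy => (h5 hy).1, fun y hy => ?_⟩, fun y hy => (h5 hy).2.2⟩
  rw [(h5 hy).2.1, (h5 hy).2.2.self_of_nhds]

theorem Surf.of_contDiffAt (h : ∀ x ∈ M, ∃ f : E → ℝ, (∀ᶠ y in 𝓝 x, ContDiffAt ℝ ∞ f y) ∧
    fderiv ℝ f x ≠ 0 ∧ ∀ᶠ y in 𝓝 x, y ∈ M ↔ f y = 0) : Surf M := by
  intro x hx
  obtain ⟨f, h1, h2, h3⟩ := h x hx
  obtain ⟨w, U, h4, h5, -⟩ := exists_locDef h1 h2 h3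
  exact ⟨w, U, h4, h5⟩

/-- a regular level set is a surface -/
theorem locDef_level (hw : ContDiff ℝ ∞ w) : LocDef {y | w y = 0} {y | grad w y ≠ 0} w :=
  ⟨isOpen_ne_fun (contDiff_grad_top hw).continuous continuous_const, hw, fun _ h => h,
    fun _ _ => Iff.rfl⟩

theorem surf_level (hw : ContDiff ℝ ∞ w) (h : ∀ y, w y = 0 → grad w y ≠ 0) :
    Surf {y | w y = 0} := fun p hp => ⟨w, _, h p hp, locDef_level hw⟩

end Vale.Agent.P218N.H
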