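import Vale.Agent.P218N.H.Chart

/-! Parametrised surfaces: images of immersions are surfaces; tangent planes and second
fundamental form in a parametrisation. -/

open MeasureTheory Set Filter Topology Metric
open scoped NNReal RealInnerProductSpace ContDiff

namespace Vale.Agent.P218N.H

open Vale.Agent.P218.H313

set_option linter.unusedSectionVars false
set_option linter.unusedVariables false

variable {E : Type*} [NormedAddCommGroup E] [InnerProductSpace ℝ E] [FiniteDimensional ℝ E]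
variable {D : Type*} [NormedAddCommGroup D] [NormedSpace ℝ D] [FiniteDimensional ℝ D]
variable {m : ℕ} {M U : Set E} {w : E → ℝ} {φ : D → E} {a : D}

lemma exists_normal (hE : Module.finrank ℝ E = m + 1) (hD : Module.finrank ℝ D = m)
    (L : D →L[ℝ] E) : ∃ n : E, ‖n‖ = 1 ∧ ∀ v, ⟪n, L v⟫ = 0 := by
  have h1 : Module.finrank ℝ (LinearMap.range (L : D →ₗ[ℝ] E)) ≤ m :=
    hD ▸ LinearMap.finrank_range_le _
  have h2 := (LinearMap.range (L : D →ₗ[ℝ] E)).finrank_add_finrank_orthogonal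
  have h3 : (LinearMap.range (L : D →ₗ[ℝ] E))ᗮ ≠ ⊥ := by
    intro h4
    rw [h4, finrank_bot] at h2
    omega
  obtain ⟨n, h4, h5⟩ := Submodule.exists_mem_ne_zero_of_ne_bot h3
  refine ⟨‖n‖⁻¹ • n, norm_smul_inv_norm h5, fun v => ?_⟩
  rw [real_inner_smul_left, show ⟪n, L v⟫ = 0 from
    Submodule.inner_left_of_mem_orthogonal (LinearMap.mem_range_self (L : D →ₗ[ℝ] E) v) h4, mul_zero]

/-- the image of an immersion which is open in `M` gives a local defining function of `M` -/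
theorem exists_locDef_of_param (hE : Module.finrank ℝ E = m + 1) (hD : Module.finrank ℝ D = m)
    (hφ : ∀ᶠ y in 𝓝 a, ContDiffAt ℝ ∞ φ y) (hinj : Function.Injective (fderiv ℝ φ a))
    (h1 : ∀ᶠ y in 𝓝 a, φ y ∈ M) (h2 : 𝓝[M] (φ a) ≤ map φ (𝓝 a)) :
    ∃ w U, φ a ∈ U ∧ LocDef M U w := by
  have := FiniteDimensional.complete ℝ E
  have := FiniteDimensional.complete ℝ D
  obtain ⟨n, hn, hn'⟩ := exists_normal hE hD (fderiv ℝ φ a)
  obtain ⟨O, hO1, hO2, hO3⟩ := _root_.mem_nhds_iff.1 (hφ.and h1)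
  set G : D × ℝ → E := fun z => φ z.1 + z.2 • n with hG
  have hGs : ∀ z ∈ O ×ˢ (univ : Set ℝ), ContDiffAt ℝ ∞ G z := fun z hz =>
    ((hO1 hz.1).1.comp z contDiffAt_fst).add (contDiffAt_snd.smul contDiffAt_const)
  have hd : HasFDerivAt G ((fderiv ℝ φ a).comp (ContinuousLinearMap.fst ℝ D ℝ)
      + (ContinuousLinearMap.snd ℝ D ℝ).smulRight n) (a, 0) :=
    ((hφ.self_of_nhds.differentiableAt (by simp)).hasFDerivAt.comp (a, (0 : ℝ))
      hasFDerivAt_fst).add (hasFDerivAt_snd.smul_const n)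
  have hi : Function.Injective (fderiv ℝ G (a, 0)) := by
    rw [hd.fderiv, injective_iff_map_eq_zero]
    rintro ⟨v, t⟩ hv
    have h3 : fderiv ℝ φ a v + t • n = 0 := hv
    have h4 := congrArg (fun z => ⟪n, z⟫) h3
    simp only [inner_add_right, hn', real_inner_smul_right, real_inner_self_eq_norm_sq, hn,
      inner_zero_right] at h4
    have h5 : t = 0 := by linarith
    rw [h5, zero_smul, add_zero] at h3
    rw [h5, (injective_iff_map_eq_zero _).1 hinj v h3]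
    rfl
  obtain ⟨ψ, h3, h4, h5, h6, -⟩ := ift (hO2.prod isOpen_univ) hGs (z0 := (a, 0)) ⟨hO3, trivial⟩
    ⟨hi, (LinearMap.injective_iff_surjective_of_finrank_eq_finrank
      (f := (fderiv ℝ G (a, 0) : D × ℝ →ₗ[ℝ] E)) (by simp [hE, hD])).1 hi⟩
  have hψa : ψ (a, 0) = φ a := by rw [h5, hG]; simp
  have hat : φ a ∈ ψ.target := hψa ▸ ψ.map_source h3
  have hev : ∀ᶠ z in 𝓝 (φ a), z ∈ ψ.target := ψ.open_target.mem_nhds hat
  have hf : ∀ᶠ z in 𝓝 (φ a), ContDiffAt ℝ ∞ (fun z => (ψ.symm z).2) z :=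
    hev.mono fun z hz => contDiffAt_snd.comp z (h6 z hz)
  refine (exists_locDef (M := M) hf (fun h0 => ?_) ?_).imp fun w => Exists.imp fun U h =>
    ⟨h.1, h.2.1⟩
  · have h9 : HasDerivAt (fun t : ℝ => φ a + t • n) n 0 := by
      simpa using ((hasDerivAt_id (0 : ℝ)).smul_const n).const_add (φ a)
    have h10 : HasFDerivAt (fun z => (ψ.symm z).2) (0 : E →L[ℝ] ℝ) (φ a + (0 : ℝ) • n) := by
      rw [zero_smul, add_zero, ← h0]
      exact (hf.self_of_nhds.differentiableAt (by simp)).hasFDerivAt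
    have h11 : ((fun z => (ψ.symm z).2) ∘ fun t : ℝ => φ a + t • n) =ᶠ[𝓝 0] id := by
      have h12 : ∀ᶠ t in 𝓝 (0 : ℝ), (a, t) ∈ ψ.source :=
        (Continuous.prodMk_right a).continuousAt.eventually (ψ.open_source.mem_nhds h3)
      filter_upwards [h12] with t ht
      have h13 : φ a + t • n = ψ (a, t) := (h5 (a, t)).symm
      simp only [Function.comp, h13, ψ.left_inv ht, id]
    have h12 := ((h10.comp_hasDerivAt (0 : ℝ) h9).congr_of_eventuallyEq h11.symm).unique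
      (hasDerivAt_id (0 : ℝ))
    simp at h12
  · have h9 : ∀ᶠ y in 𝓝 a, (y, (0 : ℝ)) ∈ ψ.source :=
      (Continuous.prodMk_left (0 : ℝ)).continuousAt.eventually (ψ.open_source.mem_nhds h3)
    have h10 : ∀ᶠ z in 𝓝[M] (φ a), (ψ.symm z).2 = 0 := by
      refine h2 (mem_map.2 (h9.mono fun y hy => ?_))
      have h13 : φ y = ψ (y, 0) := by rw [h5, hG]; simp
      simp only [mem_ofPred_eq, h13, ψ.left_inv hy]
    filter_upwards [hev, eventually_nhdsWithin_iff.1 h10] with z hz h11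
    refine ⟨h11, fun h12 => ?_⟩
    have h13 := ψ.map_target hz
    have h14 : z = φ (ψ.symm z).1 := by
      conv_lhs => rw [← ψ.right_inv hz, h5, hG]
      simp [h12]
    rw [h14]
    exact (hO1 (h4 h13).1).2

/-- the derivative of a map into `M` is tangent to `M` -/
theorem LocDef.inner_grad_fderiv (hw : LocDef M U w) (hU : φ a ∈ U)
    (hφ : DifferentiableAt ℝ φ a) (h1 : ∀ᶠ y in 𝓝 a, φ y ∈ M) (v : D) :
    ⟪grad w (φ a), fderiv ℝ φ a v⟫ = 0 := by
  have h2 := (hw.smooth.differentiable (by simp) (φ a)).hasFDerivAt.comp a hφ.hasFDerivAt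
  have h3 : (w ∘ φ) =ᶠ[𝓝 a] fun _ => 0 := by
    filter_upwards [h1, hφ.continuousAt.eventually (hw.isOpen.mem_nhds hU)] with y h4 h5
    exact hw.zero h5 h4
  have h4 := (h2.congr_of_eventuallyEq h3.symm).unique (hasFDerivAt_const (0 : ℝ) a)
  rw [inner_grad]
  exact congrArg (fun L : D →L[ℝ] ℝ => L v) h4

theorem LocDef.inner_nuW_fderiv (hw : LocDef M U w) (hU : φ a ∈ U)
    (hφ : DifferentiableAt ℝ φ a) (h1 : ∀ᶠ y in 𝓝 a, φ y ∈ M) (v : D) :
    ⟪nuW w (φ a), fderiv ℝ φ a v⟫ = 0 := by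
  rw [nuW, real_inner_smul_left, hw.inner_grad_fderiv hU hφ h1, mul_zero]

/-- the second fundamental form in a parametrisation -/
theorem LocDef.inner_nuW_snd (hw : LocDef M U w) (hU : φ a ∈ U)
    (hφ : ContDiffAt ℝ 2 φ a) (h1 : ∀ᶠ y in 𝓝 a, φ y ∈ M) (u v : D) :
    ⟪nuW w (φ a), fderiv ℝ (fderiv ℝ φ) a u v⟫
      = -⟪AW w (φ a) (fderiv ℝ φ a u), fderiv ℝ φ a v⟫ := by
  have hd : DifferentiableAt ℝ φ a := hφ.differentiableAt (by simp)
  have h2 : ∀ᶠ y in 𝓝 a, ⟪nuW w (φ y), fderiv ℝ φ y v⟫ = 0 := by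
    filter_upwards [h1.eventually_nhds, hd.continuousAt.eventually (hw.isOpen.mem_nhds hU),
      hφ.eventually (by simp)] with y h3 h4 h5
    exact hw.inner_nuW_fderiv h4 (h5.differentiableAt (by simp)) h3 v
  have h3 := (((contDiffAt_nuW hw.smooth (hw.ne _ hU)).differentiableAt
    (by simp)).hasFDerivAt.comp a hd.hasFDerivAt)
  have h4 : HasFDerivAt (fderiv ℝ φ) (fderiv ℝ (fderiv ℝ φ) a) a :=
    ((hφ.fderiv_right (m := 1) (by norm_num)).differentiableAt (by simp)).hasFDerivAt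
  have h5 := (h3.inner ℝ (h4.clm_apply (hasFDerivAt_const v a))).unique
    ((hasFDerivAt_const (0 : ℝ) a).congr_of_eventuallyEq h2)
  have h6 := congrArg (fun L : D →L[ℝ] ℝ => L u) h5
  simp only [ContinuousLinearMap.comp_apply, ContinuousLinearMap.prod_apply, fderivInnerCLM_apply,
    add_apply, zero_apply, ContinuousLinearMap.flip_apply, map_zero, Function.comp_apply,
    zero_add] at h6
  rw [AW_eq hw.smooth (hw.ne _ hU), ContinuousLinearMap.comp_apply,
    PW_of_inner (hw.inner_grad_fderiv hU hd h1 u)]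
  linarith

namespace Surf

theorem inner_nu_fderiv (hM : Surf M) (hφ : DifferentiableAt ℝ φ a) (h1 : ∀ᶠ y in 𝓝 a, φ y ∈ M)
    (v : D) : ⟪nu M (φ a), fderiv ℝ φ a v⟫ = 0 := by
  obtain ⟨U, h2, h3⟩ := hM.dfn_spec h1.self_of_nhds
  exact h3.inner_nuW_fderiv h2 hφ h1 v

theorem PT_fderiv (hM : Surf M) (hφ : DifferentiableAt ℝ φ a) (h1 : ∀ᶠ y in 𝓝 a, φ y ∈ M)
    (v : D) : PT M (φ a) (fderiv ℝ φ a v) = fderiv ℝ φ a v :=
  perp_of_inner (hM.inner_nu_fderiv hφ h1 v)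

theorem inner_nu_snd (hM : Surf M) (hφ : ContDiffAt ℝ 2 φ a) (h1 : ∀ᶠ y in 𝓝 a, φ y ∈ M)
    (u v : D) : ⟪nu M (φ a), fderiv ℝ (fderiv ℝ φ) a u v⟫
      = -⟪sff M (φ a) (fderiv ℝ φ a u), fderiv ℝ φ a v⟫ := by
  obtain ⟨U, h2, h3⟩ := hM.dfn_spec h1.self_of_nhds
  exact h3.inner_nuW_snd h2 hφ h1 u v

/-- the tangent plane is the range of the derivative of a parametrisation -/
theorem range_fderiv (hE : Module.finrank ℝ E = m + 1) (hD : Module.finrank ℝ D = m) (hM : Surf M)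
    (hφ : DifferentiableAt ℝ φ a) (h1 : ∀ᶠ y in 𝓝 a, φ y ∈ M)
    (hinj : Function.Injective (fderiv ℝ φ a)) :
    LinearMap.range (fderiv ℝ φ a : D →ₗ[ℝ] E) = tanP M (φ a) := by
  refine Submodule.eq_of_le_of_finrank_eq ?_ ?_
  · rintro _ ⟨v, rfl⟩
    exact mem_tanP.2 (hM.inner_nu_fderiv hφ h1 v)
  · rw [LinearMap.finrank_range_of_inj hinj, hD, hM.finrank_tanP h1.self_of_nhds hE]

/-- a surface is locally parametrised -/
theorem of_param (hE : Module.finrank ℝ E = m + 1) (hD : Module.finrank ℝ D = m)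
    (h : ∀ x ∈ M, ∃ (φ : D → E) (a : D), φ a = x ∧ (∀ᶠ y in 𝓝 a, ContDiffAt ℝ ∞ φ y) ∧
      Function.Injective (fderiv ℝ φ a) ∧ (∀ᶠ y in 𝓝 a, φ y ∈ M) ∧ 𝓝[M] x ≤ map φ (𝓝 a)) :
    Surf M := fun x hx => by
  obtain ⟨φ, a, rfl, h1, h2, h3, h4⟩ := h x hx
  exact exists_locDef_of_param hE hD h1 h2 h3 h4

end Surf

/-- in a graph chart the neighbourhoods in `M` are the images of the neighbourhoods in the plane -/
theorem GChart.map_nhds {f : Frame m E} {p : E} {r h : ℝ} {u : Em m → ℝ}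
    (c : GChart M f p r h u) {y : Em m} (hy : ‖y‖ < r) :
    map (f.gr p u) (𝓝 y) = 𝓝[M] (f.gr p u y) := by
  refine le_antisymm (tendsto_nhdsWithin_iff.2 ⟨(f.contDiff_gr p c.smooth).continuous.tendsto y,
    ?_⟩) fun s hs => ?_
  · filter_upwards [isOpen_ball.mem_nhds (mem_ball_zero_iff.2 hy)] with z hz
    exact c.gr_mem (mem_ball_zero_iff.1 hz)
  · have h1 : ContinuousAt (fun x => f.π (x - p)) (f.gr p u y) := by fun_prop
    rw [ContinuousAt, f.π_gr] at h1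
    filter_upwards [self_mem_nhdsWithin, mem_nhdsWithin_of_mem_nhds (h1.eventually (mem_map.1 hs)),
      mem_nhdsWithin_of_mem_nhds ((f.isOpen_cyl p r h).mem_nhds (c.gr_mem_cyl hy))] with x h2 h3 h4
    have h5 : f.gr p u (f.π (x - p)) ∈ s := h3
    rwa [f.gr_π ((c.mem_iff x h4).1 h2)] at h5

end Vale.Agent.P218N.H
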