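import Vale.Agent.P218N.H.Emb
import Vale.Agent.P218N.H.Param
import Vale.Agent.P218N.H.Dil
import Vale.Agent.P218N.B.Stmt
import Vale.Agent.P218N.GB.Local
import Vale.Agent.P218N.GB.Rank

/-! From embedded compact surfaces to the rescaled slices. -/

open MeasureTheory Set Filter Topology Metric
open scoped NNReal RealInnerProductSpace ContDiff Manifold

namespace Vale.Agent.P218N.H

open Vale.Agent.P218.H313
open Vale.Agent.P218.H313.A1 (dil xx)
open Vale.Agent.P218.H552 (NN tau0 tim)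
open Vale.Agent.P218N.GB (RankC)
open Vale.Agent.P218N.B (mu EB cls En Hn)

set_option linter.unusedSectionVars false
set_option linter.unusedVariables false

theorem bridgeStmt : B.BridgeStmt := fun M T H hM hc h => by
  filter_upwards [hM.tan_unique B.finrank_E3 h, hM.mean_unique B.finrank_E3 h,
    ae_restrict_mem hM.measurableSet] with x h1 h2 hx
  exact ⟨by rw [h1, hM.proj_tanP hx], h2⟩

theorem densStmt : B.DensStmt := fun M hM hc x hx c hc' => by
  have h2 := hM.approxTangent B.finrank_E3 hx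
  have h3 := h2.2 ker continuous_ker ker_compact
  rw [A1.integral_ker_plane h2.1, Nat.cast_one, one_mul] at h3
  exact (h3.eventually (lt_mem_nhds hc')).mono fun r hr => le_of_lt hr

/-- the local Gauss-Bonnet estimate in the form used in block B -/
theorem exists_EB : ∃ C : ℝ, 0 < C ∧ ∀ (M : Set E3) (b : ℕ), Surf M → IsClosed M → RankC M b →
    EB (C * (1 + b)) M := by
  refine ⟨10 ^ 8 * (1 + P218GA.cH 2), by positivity, fun M b h hc hb x r hr => ?_⟩
  have k := GB.local_gb h hc hb x hr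
  have e := P218GA.hausdorff_eq_smul (X := E3) 2
  have k1 : ∀ (g : E3 → ENNReal) (s : ℝ), ∫⁻ y in ball x s, g y ∂(mu M)
      = P218GA.cH 2 * ∫⁻ y in M ∩ ball x s, g y ∂μHE[2] := fun g s => by
    rw [mu, Measure.restrict_restrict measurableSet_ball, inter_comm, e, Measure.restrict_smul,
      lintegral_smul_measure, ENNReal.smul_def, smul_eq_mul]
  have k2 : mu M (ball x (2 * r)) = P218GA.cH 2 * μHE[2] (M ∩ ball x (2 * r)) := by
    rw [mu, Measure.restrict_apply measurableSet_ball, inter_comm, e, Measure.smul_apply,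
      ENNReal.smul_def, smul_eq_mul]
  rw [En, Hn, k1, k1, k2, ENNReal.ofReal_inv_of_pos (by positivity),
    ENNReal.ofReal_mul (by positivity), ENNReal.ofReal_mul (by positivity),
    ENNReal.ofReal_add (by positivity) (by positivity),
    ENNReal.ofReal_add (by positivity) (by positivity), ENNReal.ofReal_coe_nnreal,
    ENNReal.ofReal_natCast, ENNReal.ofReal_one, ENNReal.ofReal_pow (by norm_num),
    ENNReal.ofReal_ofNat]
  rw [ENNReal.div_eq_inv_mul] at k
  refine (mul_le_mul_right k _).trans ?_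
  generalize (∫⁻ y in M ∩ ball x (2 * r), ENNReal.ofReal (‖Hv M y‖ ^ 2) ∂μHE[2]) = A
  generalize μHE[2] (M ∩ ball x (2 * r)) = B
  generalize (ENNReal.ofReal (r ^ 2))⁻¹ = R
  generalize ((P218GA.cH 2 : ℝ≥0) : ENNReal) = c
  calc c * (10 ^ 8 * (A + R * B + b)) = 10 ^ 8 * (1 * 1 * (c * A + R * (c * B)) + c * b * 1) := by
        ring
    _ ≤ 10 ^ 8 * ((1 + c) * (1 + b) * (c * A + R * (c * B)) + (1 + c) * (1 + b) * 1) := by
        gcongr <;> first | exact le_self_add | exact le_add_self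
    _ = _ := by ring

variable {S : Type} [TopologicalSpace S] [ChartedSpace E2 S] [IsManifold (𝓡 2) ∞ S]
  {X : S → E3}

namespace IsEmb

lemma isClosedEmbedding [CompactSpace S] (h : IsEmb X) : IsClosedEmbedding X :=
  h.smooth.continuous.isClosedEmbedding h.inj

end IsEmb

lemma contDiffAt_chart (h : ContMDiff (𝓡 2) (𝓡 3) ∞ X) (p : S) {y : E2}
    (hy : y ∈ (chartAt E2 p).target) : ContDiffAt ℝ ∞ (X ∘ (chartAt E2 p).symm) y :=
  (h.contMDiffAt.comp y ((contMDiffOn_chart_symm (I := 𝓡 2) (n := ∞)).contMDiffAt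
    ((chartAt E2 p).open_target.mem_nhds hy))).contDiffAt

lemma fderiv_chart (h : ContMDiff (𝓡 2) (𝓡 3) ∞ X) (p : S) :
    fderiv ℝ (X ∘ (chartAt E2 p).symm) (chartAt E2 p p) = mfderiv (𝓡 2) (𝓡 3) X p := by
  rw [(h.mdifferentiableAt (by simp)).mfderiv]
  simp [writtenInExtChartAt]
  rfl

theorem IsEmb.surf [CompactSpace S] (h : IsEmb X) : Surf (range X) := by
  refine Surf.of_param (D := E2) B.finrank_E3 (by simp) ?_
  rintro _ ⟨p, rfl⟩
  set e := chartAt E2 p
  have hp : p ∈ e.source := mem_chart_source E2 p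
  refine ⟨X ∘ e.symm, e p, by simp [e.left_inv hp], ?_, ?_,
    Eventually.of_forall fun y => mem_range_self _, ?_⟩
  · filter_upwards [e.open_target.mem_nhds (e.map_source hp)] with y hy
    exact contDiffAt_chart h.smooth p hy
  · rw [fderiv_chart h.smooth]; exact h.imm p
  · rw [← Filter.map_map, e.symm_map_nhds_eq hp, h.isClosedEmbedding.isInducing.map_nhds_eq]

/-- the class of the rescaled slices -/
def GoodM (b : ℕ) : Set (Measure E3) :=
  {μ | ∃ M : Set E3, Surf M ∧ IsCompact M ∧ IsConnected M ∧ RankC M b ∧ μ = mu M}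

theorem goodM_subset : ∃ C : ℝ, 0 < C ∧ ∀ b : ℕ, GoodM b ⊆ cls (C * (1 + b)) := by
  obtain ⟨C, h0, hC⟩ := exists_EB
  refine ⟨C, h0, fun b => ?_⟩
  rintro _ ⟨M, h1, h2, -, h3, rfl⟩
  exact ⟨M, h1, h2.isClosed, hC M b h1 h2.isClosed h3, rfl⟩

lemma GoodM.dil {b : ℕ} {μ : Measure E3} (h : μ ∈ GoodM b) {lam : ℝ} (hl : 0 < lam) (x₀ : E3) :
    dil 2 lam x₀ μ ∈ GoodM b := by
  obtain ⟨M, h1, h2, h3, h4, rfl⟩ := h
  set e := simH x₀ (inv_pos.2 hl).ne' (LinearIsometryEquiv.refl ℝ E3)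
  have he : xx lam x₀ ⁻¹' M = e ⁻¹' M := rfl
  refine ⟨xx lam x₀ ⁻¹' M, h1.sim (Q := LinearIsometryEquiv.refl ℝ E3) (inv_pos.2 hl), ?_, ?_, ?_,
    dil_restrict hl x₀ M⟩
  · rw [he]; exact e.isCompact_preimage.2 h2
  · rw [he]; exact e.isConnected_preimage.2 h3
  · rw [he]; exact h4.homeo (e.sets rfl)

theorem exists_goodM [CompactSpace S] [T2Space S] [ConnectedSpace S] :
    ∃ b : ℕ, ∀ X : S → E3, IsEmb X → mu (range X) ∈ GoodM b := by
  obtain ⟨b, hb⟩ := GB.rank_of_charts (X := S) (H := E2)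
  exact ⟨b, fun X h => ⟨range X, h.surf, isCompact_range h.smooth.continuous,
    isConnected_range h.smooth.continuous,
    hb.rankC.homeo h.isClosedEmbedding.isEmbedding.toHomeomorph.symm, rfl⟩⟩

/-- **The bridge.** If the slices before the time `T` are embedded copies of the closed surface
`S`, the flow has finite mass and the rescaled slices belong to one class `GoodM b`. -/
theorem bridge [CompactSpace S] [T2Space S] [ConnectedSpace S] {μ : ℝ → Measure E3} {T : ℝ}
    (h : ∀ t ∈ Ico 0 T, ∃ X : S → E3, IsEmb X ∧ μ t = (μH[2] : Measure E3).restrict (range X))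
    (x₀ : E3) {t₀ : ℝ} (ht : 0 < t₀) (hT : t₀ ≤ T) :
    μ 0 univ < ⊤ ∧ ∃ b : ℕ, ∀ τ, tau0 t₀ ≤ τ → NN 2 μ x₀ t₀ τ ∈ GoodM b := by
  obtain ⟨b, hb⟩ := exists_goodM (S := S)
  constructor
  · obtain ⟨X, h1, h2⟩ := h 0 ⟨le_rfl, ht.trans_le hT⟩
    have := h1.surf.finite B.finrank_E3 (isCompact_range h1.smooth.continuous)
    rw [h2]
    exact measure_lt_top (mu (range X)) univ
  · refine ⟨b, fun τ hτ => ?_⟩
    have h1 : tim t₀ (Real.exp τ) < t₀ := by
      have := A1.ti_lt t₀ (2 * τ)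
      rwa [← A1.tim_half, mul_div_cancel_left₀ _ two_ne_zero] at this
    obtain ⟨X, h2, h3⟩ := h (tim t₀ (Real.exp τ)) ⟨P218.H552.tim_nonneg ht hτ, h1.trans_le hT⟩
    have h4 : NN 2 μ x₀ t₀ τ = dil 2 (Real.exp τ) x₀ (μ (tim t₀ (Real.exp τ))) := rfl
    rw [h4, h3]
    exact GoodM.dil (hb X h2) (Real.exp_pos τ) x₀

end Vale.Agent.P218N.H
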