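import Vale.Agent.P218N.H.Surf

/-! Independence of the geometric quantities from the defining function; continuity. -/

open MeasureTheory Set Filter Topology Metric
open scoped NNReal RealInnerProductSpace ContDiff

namespace Vale.Agent.P218N.H

open Vale.Agent.P218.H313

set_option linter.unusedSectionVars false
set_option linter.unusedVariables false

/-- the smooth inverse function theorem -/
theorem ift {X F : Type*} [NormedAddCommGroup X] [NormedSpace ℝ X] [CompleteSpace X]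
    [NormedAddCommGroup F] [NormedSpace ℝ F] [CompleteSpace F] {G : X → F} {O : Set X}
    (hO : IsOpen O) (hG : ∀ z ∈ O, ContDiffAt ℝ ∞ G z) {z0 : X} (h0 : z0 ∈ O)
    (hb : Function.Bijective (fderiv ℝ G z0)) :
    ∃ φ : OpenPartialHomeomorph X F, z0 ∈ φ.source ∧ φ.source ⊆ O ∧ (∀ z, φ z = G z) ∧
      (∀ y ∈ φ.target, ContDiffAt ℝ ∞ φ.symm y) ∧
      ∀ z ∈ φ.source, Function.Bijective (fderiv ℝ G z) := by
  set A : X ≃L[ℝ] F := ContinuousLinearEquiv.ofBijective (fderiv ℝ G z0)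
    (LinearMap.ker_eq_bot.2 hb.1) (LinearMap.range_eq_top.2 hb.2) with hA
  have hA' : (A : X →L[ℝ] F) = fderiv ℝ G z0 := rfl
  have hd : HasFDerivAt G (A : X →L[ℝ] F) z0 :=
    ((hG z0 h0).differentiableAt (by simp)).hasFDerivAt
  set φ0 := (hG z0 h0).toOpenPartialHomeomorph G hd (by simp)
  have h1 : ∀ᶠ z in 𝓝 z0, z ∈ O ∧ fderiv ℝ G z ∈ range ((↑) : (X ≃L[ℝ] F) → X →L[ℝ] F) := by
    refine Filter.Eventually.and (hO.mem_nhds h0) ?_
    exact ((hG z0 h0).fderiv_right (m := ∞) (by simp)).continuousAt.eventually (A.nhds)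
  obtain ⟨O', h2, h3, h4⟩ := _root_.mem_nhds_iff.1 h1
  refine ⟨φ0.restrOpen O' h3, ⟨(hG z0 h0).mem_toOpenPartialHomeomorph_source hd (by simp), h4⟩,
    fun z hz => (h2 hz.2).1, fun z => rfl, fun y hy => ?_, fun z hz => ?_⟩
  · have h5 := (φ0.restrOpen O' h3).map_target hy
    obtain ⟨h6, B, h7⟩ := h2 h5.2
    refine (φ0.restrOpen O' h3).contDiffAt_symm (f₀' := B) hy ?_ (hG _ h6)
    rw [h7]
    exact ((hG _ h6).differentiableAt (by simp)).hasFDerivAt
  · obtain ⟨h6, B, h7⟩ := h2 hz.2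
    rw [← h7]
    exact B.bijective

variable {E : Type*} [NormedAddCommGroup E] [InnerProductSpace ℝ E] [FiniteDimensional ℝ E]
variable {M U U' : Set E} {w w' : E → ℝ} {x : E}

/-- the straightening map -/
noncomputable def strt (w : E → ℝ) (x y : E) : E := PW w x (y - x) + w y • nuW w x

lemma contDiff_strt (hw : ContDiff ℝ ∞ w) (x : E) : ContDiff ℝ ∞ (strt w x) :=
  ((PW w x).contDiff.comp (contDiff_id.sub contDiff_const)).add (hw.smul contDiff_const)

lemma hasFDerivAt_strt (hw : ContDiff ℝ ∞ w) (x y : E) :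
    HasFDerivAt (strt w x) (PW w x + (fderiv ℝ w y).smulRight (nuW w x)) y := by
  have h1 : HasFDerivAt (fun z => PW w x (z - x)) (PW w x) y := by
    have := (PW w x).hasFDerivAt.comp y ((hasFDerivAt_id y).sub_const x)
    rwa [ContinuousLinearMap.comp_id] at this
  exact h1.add ((hw.differentiable (by simp) y).hasFDerivAt.smul_const _)

lemma inner_strt (h : grad w x ≠ 0) (y : E) : ⟪nuW w x, strt w x y⟫ = w y := by
  rw [strt, inner_add_right, PW, inner_perp (norm_nuW h), real_inner_smul_right,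
    real_inner_self_eq_norm_sq, norm_nuW h]
  ring

lemma PW_strt (h : grad w x ≠ 0) (y : E) : PW w x (strt w x y) = PW w x (y - x) := by
  rw [strt, map_add, map_smul, PW_PW h, PW, perp_self (norm_nuW h), smul_zero, add_zero]

lemma bij_strt (hw : ContDiff ℝ ∞ w) (h : grad w x ≠ 0) :
    Function.Bijective (fderiv ℝ (strt w x) x) := by
  have hinj : Function.Injective (fderiv ℝ (strt w x) x) := by
    rw [(hasFDerivAt_strt hw x x).fderiv, injective_iff_map_eq_zero]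
    intro v hv
    have h1 : PW w x v + fderiv ℝ w x v • nuW w x = 0 := hv
    have h2 := congrArg (fun z => ⟪nuW w x, z⟫) h1
    simp only [inner_add_right, PW, inner_perp (norm_nuW h), real_inner_smul_right,
      real_inner_self_eq_norm_sq, norm_nuW h, inner_zero_right] at h2
    have h3 : fderiv ℝ w x v = 0 := by linarith
    rw [h3, zero_smul, add_zero, PW_of_inner (by rw [inner_grad, h3])] at h1
    exact h1
  exact ⟨hinj, (LinearMap.injective_iff_surjective (f := (fderiv ℝ (strt w x) x : E →ₗ[ℝ] E))).1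
    hinj⟩

/-- straightening of the level sets of `w` -/
theorem exists_strt (hw : ContDiff ℝ ∞ w) (h : grad w x ≠ 0) {O : Set E} (hO : IsOpen O)
    (hx : x ∈ O) :
    ∃ φ : OpenPartialHomeomorph E E, x ∈ φ.source ∧ φ.source ⊆ O ∧ (∀ z, φ z = strt w x z) ∧
      (∀ y ∈ φ.target, ContDiffAt ℝ ∞ φ.symm y) ∧
      ∀ z ∈ φ.source, Function.Bijective (fderiv ℝ (strt w x) z) := by
  have := FiniteDimensional.complete ℝ E
  exact ift hO (fun z _ => (contDiff_strt hw x).contDiffAt) hx (bij_strt hw h)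

namespace LocDef

lemma zero (h : LocDef M U w) (hx : x ∈ U) (hM : x ∈ M) : w x = 0 := (h.mem_iff x hx).1 hM

lemma mono (h : LocDef M U w) (hU' : IsOpen U') (hs : U' ⊆ U) : LocDef M U' w :=
  ⟨hU', h.smooth, fun y hy => h.ne y (hs hy), fun y hy => h.mem_iff y (hs hy)⟩

lemma congr {M' : Set E} (h : LocDef M U w) (hs : ∀ y ∈ U, y ∈ M' ↔ y ∈ M) : LocDef M' U w :=
  ⟨h.isOpen, h.smooth, h.ne, fun y hy => (hs y hy).trans (h.mem_iff y hy)⟩

lemma norm_nuW (h : LocDef M U w) (hx : x ∈ U) : ‖nuW w x‖ = 1 := H.norm_nuW (h.ne x hx)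

/-- curves in `M` with a given tangent vector -/
theorem exists_curve (h : LocDef M U w) (hx : x ∈ U) (hM : x ∈ M) {v : E}
    (hv : ⟪grad w x, v⟫ = 0) :
    ∃ γ : ℝ → E, γ 0 = x ∧ HasDerivAt γ v 0 ∧ ContDiffAt ℝ ∞ γ 0 ∧ ∀ᶠ t in 𝓝 (0 : ℝ), γ t ∈ M := by
  obtain ⟨φ, h1, h2, h3, h4, h5⟩ := exists_strt h.smooth (h.ne x hx) h.isOpen hx
  have hφx : φ x = 0 := by rw [h3, strt, h.zero hx hM]; simp
  have h0 : (0 : E) ∈ φ.target := hφx ▸ φ.map_source h1
  have hs0 : φ.symm 0 = x := by rw [← hφx, φ.left_inv h1]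
  have hl : ContDiffAt ℝ ∞ (fun t : ℝ => t • v) 0 := contDiffAt_id.smul contDiffAt_const
  have hz : (0 : ℝ) • v = 0 := zero_smul _ _
  have hev : ∀ᶠ t in 𝓝 (0 : ℝ), t • v ∈ φ.target :=
    hl.continuousAt.eventually (φ.open_target.mem_nhds (by simpa using h0))
  have hγ : ContDiffAt ℝ ∞ (fun t : ℝ => φ.symm (t • v)) 0 :=
    ContDiffAt.comp (0 : ℝ) (g := φ.symm) (by simpa using h4 0 h0) hl
  refine ⟨fun t => φ.symm (t • v), by simpa using hs0, ?_, hγ, ?_⟩
  · have hd := (hγ.differentiableAt (by simp)).hasDerivAt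
    set u := deriv (fun t : ℝ => φ.symm (t • v)) 0 with hu
    have h6 : HasFDerivAt (strt w x) (fderiv ℝ (strt w x) x) (φ.symm ((0 : ℝ) • v)) := by
      rw [hz, hs0]; exact ((contDiff_strt h.smooth x).differentiable (by simp) x).hasFDerivAt
    have h7 := h6.comp_hasDerivAt (0 : ℝ) hd
    have h8 : HasDerivAt (fun t : ℝ => t • v) v 0 := by
      simpa using (hasDerivAt_id (0 : ℝ)).smul_const v
    have h9 : (strt w x ∘ fun t : ℝ => φ.symm (t • v)) =ᶠ[𝓝 0] fun t : ℝ => t • v := by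
      filter_upwards [hev] with t ht
      simp only [Function.comp]
      rw [← h3, φ.right_inv ht]
    have h10 := (h7.congr_of_eventuallyEq h9.symm).unique h8
    have h11 : fderiv ℝ (strt w x) x v = v := by
      rw [(hasFDerivAt_strt h.smooth x x).fderiv]
      change PW w x v + fderiv ℝ w x v • nuW w x = v
      rw [PW_of_inner hv, ← inner_grad, hv, zero_smul, add_zero]
    have h12 : u = v := (bij_strt h.smooth (h.ne x hx)).1 (h10.trans h11.symm)
    rwa [h12] at hd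
  · filter_upwards [hev] with t ht
    have h6 := φ.map_target ht
    rw [h.mem_iff _ (h2 h6), ← inner_strt (h.ne x hx), ← h3, φ.right_inv ht,
      real_inner_smul_right, nuW, real_inner_smul_left, hv]
    ring

/-- functions which agree on `M` have the same tangential derivatives -/
theorem fderiv_eq {F : Type*} [NormedAddCommGroup F] [NormedSpace ℝ F] (h : LocDef M U w)
    (hx : x ∈ U) (hM : x ∈ M) {f g : E → F} (hf : DifferentiableAt ℝ f x)
    (hg : DifferentiableAt ℝ g x) (hfg : ∀ᶠ y in 𝓝[M] x, f y = g y) {v : E}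
    (hv : ⟪grad w x, v⟫ = 0) : fderiv ℝ f x v = fderiv ℝ g x v := by
  obtain ⟨γ, h0, h1, h2, h3⟩ := h.exists_curve hx hM hv
  have h4 : HasFDerivAt f (fderiv ℝ f x) (γ 0) := h0 ▸ hf.hasFDerivAt
  have h5 : HasFDerivAt g (fderiv ℝ g x) (γ 0) := h0 ▸ hg.hasFDerivAt
  have h6 : Tendsto γ (𝓝 0) (𝓝[M] x) :=
    tendsto_nhdsWithin_iff.2 ⟨h0 ▸ h1.continuousAt.tendsto, h3⟩
  have h7 : (f ∘ γ) =ᶠ[𝓝 0] g ∘ γ := h6.eventually hfg
  exact ((h4.comp_hasDerivAt (0 : ℝ) h1).congr_of_eventuallyEq h7.symm).unique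
    (h5.comp_hasDerivAt (0 : ℝ) h1)

theorem fderiv_comp_PW {F : Type*} [NormedAddCommGroup F] [NormedSpace ℝ F] (h : LocDef M U w)
    (hx : x ∈ U) (hM : x ∈ M) {f g : E → F} (hf : DifferentiableAt ℝ f x)
    (hg : DifferentiableAt ℝ g x) (hfg : ∀ᶠ y in 𝓝[M] x, f y = g y) :
    (fderiv ℝ f x).comp (PW w x) = (fderiv ℝ g x).comp (PW w x) := by
  ext v
  exact h.fderiv_eq hx hM hf hg hfg (inner_grad_PW (h.ne x hx) v)

lemma sign_at (h : LocDef M U w) (h' : LocDef M U' w') (hx : x ∈ U) (hx' : x ∈ U') (hM : x ∈ M) :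
    nuW w' x = ⟪nuW w x, nuW w' x⟫ • nuW w x ∧ ⟪nuW w x, nuW w' x⟫ * ⟪nuW w x, nuW w' x⟫ = 1 := by
  have h1 : ∀ v, ⟪grad w' x, PW w x v⟫ = 0 := by
    intro v
    have hev : ∀ᶠ y in 𝓝[M] x, w' y = (fun _ => (0 : ℝ)) y := by
      filter_upwards [self_mem_nhdsWithin, mem_nhdsWithin_of_mem_nhds (h'.isOpen.mem_nhds hx')]
        with y hy hy'
      exact h'.zero hy' hy
    have := h.fderiv_eq hx hM (h'.smooth.differentiable (by simp) x) (differentiableAt_const _)
      hev (inner_grad_PW (h.ne x hx) v)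
    rw [inner_grad, this]; simp
  have h2 : PW w x (nuW w' x) = 0 := by
    refine ext_inner_right ℝ fun v => ?_
    rw [PW, inner_perp_left, ← PW, nuW, real_inner_smul_left, h1, mul_zero, inner_zero_left]
  rw [PW, perp_apply, sub_eq_zero] at h2
  refine ⟨h2, ?_⟩
  have h3 := congrArg (fun z => ‖z‖ ^ 2) h2
  simp only [norm_smul, h.norm_nuW hx, h'.norm_nuW hx', mul_one, Real.norm_eq_abs, sq_abs] at h3
  nlinarith

/-- two defining functions give the same normal up to a locally constant sign -/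
theorem sign (h : LocDef M U w) (h' : LocDef M U' w') (hx : x ∈ U) (hx' : x ∈ U') (hM : x ∈ M) :
    ∃ σ : ℝ, σ * σ = 1 ∧ (∀ᶠ y in 𝓝[M] x, nuW w' y = σ • nuW w y) ∧ nuW w' x = σ • nuW w x ∧
      AW w' x = σ • AW w x := by
  obtain ⟨h1, h2⟩ := h.sign_at h' hx hx' hM
  set σ := ⟪nuW w x, nuW w' x⟫ with hσ
  have hc : ContinuousAt (fun y => σ * ⟪nuW w y, nuW w' y⟫) x :=
    continuousAt_const.mul ((contDiffAt_nuW h.smooth (h.ne x hx)).continuousAt.inner
      (contDiffAt_nuW h'.smooth (h'.ne x hx')).continuousAt)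
  have hpos : ∀ᶠ y in 𝓝 x, 0 < σ * ⟪nuW w y, nuW w' y⟫ :=
    hc.eventually (lt_mem_nhds (by simp only [← hσ, h2]; norm_num))
  have hev : ∀ᶠ y in 𝓝[M] x, nuW w' y = σ • nuW w y := by
    filter_upwards [self_mem_nhdsWithin, mem_nhdsWithin_of_mem_nhds (h.isOpen.mem_nhds hx),
      mem_nhdsWithin_of_mem_nhds (h'.isOpen.mem_nhds hx'), mem_nhdsWithin_of_mem_nhds hpos]
      with y hy hyU hyU' hp
    obtain ⟨h3, h4⟩ := h.sign_at h' hyU hyU' hy
    have h5 : ⟪nuW w y, nuW w' y⟫ = σ := by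
      rcases mul_self_eq_mul_self_iff.1 (h4.trans h2.symm) with h6 | h6
      · exact h6
      · rw [h6] at hp; nlinarith
    rw [h3, h5]
  refine ⟨σ, h2, hev, h1, ?_⟩
  have hP : PW w' x = PW w x := by rw [PW, h1, perp_smul_sign h2, PW]
  have hd := (contDiffAt_nuW h.smooth (h.ne x hx)).differentiableAt (by simp)
  have hd' := (contDiffAt_nuW h'.smooth (h'.ne x hx')).differentiableAt (by simp)
  rw [AW_eq h'.smooth (h'.ne x hx'), AW_eq h.smooth (h.ne x hx), hP,
    h.fderiv_comp_PW hx hM hd' (hd.const_smul σ) hev, ← ContinuousLinearMap.smul_comp,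
    fderiv_const_smul hd]

lemma dfn_spec (h : LocDef M U w) (hx : x ∈ U) : ∃ U', x ∈ U' ∧ LocDef M U' (dfn M x) :=
  Classical.epsilon_spec (p := fun w => ∃ U : Set E, x ∈ U ∧ LocDef M U w) ⟨w, U, hx, h⟩

/-- the chosen normal and shape operator in terms of any defining function -/
theorem exists_sign (h : LocDef M U w) (hx : x ∈ U) (hM : x ∈ M) :
    ∃ σ : ℝ, σ * σ = 1 ∧ nu M x = σ • nuW w x ∧ sff M x = σ • AW w x := by
  obtain ⟨U', hx', h'⟩ := h.dfn_spec hx
  obtain ⟨σ, h1, -, h2, h3⟩ := h.sign h' hx hx' hM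
  exact ⟨σ, h1, h2, h3⟩

theorem PT_eq (h : LocDef M U w) (hx : x ∈ U) (hM : x ∈ M) : PT M x = PW w x := by
  obtain ⟨σ, h1, h2, -⟩ := h.exists_sign hx hM
  change perp (nu M x) = _
  rw [h2, perp_smul_sign h1, PW]

theorem Hv_eq (h : LocDef M U w) (hx : x ∈ U) (hM : x ∈ M) :
    Hv M x = -(tr (AW w x)) • nuW w x := by
  obtain ⟨σ, h1, h2, h3⟩ := h.exists_sign hx hM
  rw [Hv, h2, h3, tr_smul, smul_smul]
  congr 1
  linear_combination (-tr (AW w x)) * h1

theorem Asq_eq (h : LocDef M U w) (hx : x ∈ U) (hM : x ∈ M) :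
    Asq M x = tr ((AW w x).comp (AW w x)) := by
  obtain ⟨σ, h1, h2, h3⟩ := h.exists_sign hx hM
  rw [Asq, h3, ContinuousLinearMap.smul_comp, ContinuousLinearMap.comp_smul, smul_smul, h1,
    one_smul]

theorem Kg_eq (h : LocDef M U w) (hx : x ∈ U) (hM : x ∈ M) :
    Kg M x = (tr (AW w x) ^ 2 - tr ((AW w x).comp (AW w x))) / 2 := by
  obtain ⟨σ, h1, h2, h3⟩ := h.exists_sign hx hM
  rw [Kg, h.Asq_eq hx hM, h3, tr_smul]
  linear_combination (tr (AW w x) ^ 2 / 2) * h1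

theorem norm_sff_eq (h : LocDef M U w) (hx : x ∈ U) (hM : x ∈ M) : ‖sff M x‖ = ‖AW w x‖ := by
  obtain ⟨σ, h1, h2, h3⟩ := h.exists_sign hx hM
  have : |σ| = 1 := by
    rcases mul_self_eq_one_iff.1 h1 with h | h <;> simp [h]
  rw [h3, norm_smul, Real.norm_eq_abs, this, one_mul]

theorem gradM_eq (h : LocDef M U w) (hx : x ∈ U) (hM : x ∈ M) (F : E → ℝ) :
    gradM M F x = PW w x (grad F x) := by rw [gradM, h.PT_eq hx hM]

theorem hessM_eq (h : LocDef M U w) (hx : x ∈ U) (hM : x ∈ M) (F : E → ℝ) :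
    hessM M F x = (PW w x).comp ((fderiv ℝ (grad F) x).comp (PW w x))
      - ⟪grad F x, nuW w x⟫ • AW w x := by
  obtain ⟨σ, h1, h2, h3⟩ := h.exists_sign hx hM
  rw [hessM, h.PT_eq hx hM, h2, h3, real_inner_smul_right, smul_smul, mul_right_comm, h1, one_mul]

theorem divM_eq (h : LocDef M U w) (hx : x ∈ U) (hM : x ∈ M) (X : E → E) :
    divM M X x = tr ((PW w x).comp (fderiv ℝ X x)) := by rw [divM, h.PT_eq hx hM]

theorem tanP_eq (h : LocDef M U w) (hx : x ∈ U) (hM : x ∈ M) : tanP M x = (ℝ ∙ grad w x)ᗮ := by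
  obtain ⟨σ, h1, h2, -⟩ := h.exists_sign hx hM
  have hσ : σ ≠ 0 := by rintro rfl; simp at h1
  have hn : ‖grad w x‖⁻¹ ≠ 0 := inv_ne_zero (norm_ne_zero_iff.2 (h.ne x hx))
  rw [tanP, h2, nuW, smul_smul, Submodule.span_singleton_smul_eq (mul_ne_zero hσ hn).isUnit]

end LocDef

end Vale.Agent.P218N.H
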