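import Vale.Agent.P218.H313.Basic
import Mathlib.Geometry.Euclidean.Volume.Measure

/-! Smooth embedded hypersurfaces given by local defining functions: definitions, and independence
of the geometric quantities from the defining function. -/

open MeasureTheory Set Filter Topology Metric
open scoped ENNReal NNReal RealInnerProductSpace ContDiff

namespace Vale.Agent.P218N.H

open Vale.Agent.P218.H313

set_option linter.unusedSectionVars false
set_option linter.unusedVariables false

/-- Euclidean space of dimension three -/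
abbrev E3 := EuclideanSpace ℝ (Fin 3)

/-- the Euclidean plane -/
abbrev E2 := EuclideanSpace ℝ (Fin 2)

variable {E : Type*} [NormedAddCommGroup E] [InnerProductSpace ℝ E] [FiniteDimensional ℝ E]

/-- `1 - n ⊗ n` -/
noncomputable def perp (n : E) : E →L[ℝ] E :=
  ContinuousLinearMap.id ℝ E - (innerSL ℝ n).smulRight n

/-- the unit normal of the level sets of `w` -/
noncomputable def nuW (w : E → ℝ) (x : E) : E := ‖grad w x‖⁻¹ • grad w x

/-- the projection onto the tangent planes of the level sets of `w` -/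
noncomputable def PW (w : E → ℝ) (x : E) : E →L[ℝ] E := perp (nuW w x)

/-- the shape operator `P Dν P = |∇w|⁻¹ P D²w P` of the level sets of `w` -/
noncomputable def AW (w : E → ℝ) (x : E) : E →L[ℝ] E :=
  ‖grad w x‖⁻¹ • (PW w x).comp ((fderiv ℝ (grad w) x).comp (PW w x))

/-- `w` is a defining function of `M` in the open set `U` -/
structure LocDef (M U : Set E) (w : E → ℝ) : Prop where
  isOpen : IsOpen U
  smooth : ContDiff ℝ ∞ w
  ne : ∀ x ∈ U, grad w x ≠ 0
  mem_iff : ∀ x ∈ U, x ∈ M ↔ w x = 0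

/-- `M` is a smooth embedded hypersurface (without boundary, not necessarily closed) -/
def Surf (M : Set E) : Prop := ∀ p ∈ M, ∃ (w : E → ℝ) (U : Set E), p ∈ U ∧ LocDef M U w

/-- a chosen defining function of `M` near `p` -/
noncomputable def dfn (M : Set E) (p : E) : E → ℝ :=
  Classical.epsilon fun w => ∃ U : Set E, p ∈ U ∧ LocDef M U w

/-- a unit normal of `M` at `x` (the sign is arbitrary) -/
noncomputable def nu (M : Set E) (x : E) : E := nuW (dfn M x) x

/-- the orthogonal projection onto the tangent plane of `M` at `x` -/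
noncomputable def PT (M : Set E) (x : E) : E →L[ℝ] E := PW (dfn M x) x

/-- the tangent plane of `M` at `x` -/
noncomputable def tanP (M : Set E) (x : E) : Submodule ℝ E := (ℝ ∙ nu M x)ᗮ

/-- the shape operator of `M` at `x` for the normal `nu M x` -/
noncomputable def sff (M : Set E) (x : E) : E →L[ℝ] E := AW (dfn M x) x

/-- the mean curvature vector -/
noncomputable def Hv (M : Set E) (x : E) : E := -(tr (sff M x)) • nu M x

/-- the squared norm `|A|²` of the second fundamental form -/
noncomputable def Asq (M : Set E) (x : E) : ℝ := tr ((sff M x).comp (sff M x))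

/-- the Gauss curvature -/
noncomputable def Kg (M : Set E) (x : E) : ℝ := (tr (sff M x) ^ 2 - Asq M x) / 2

/-- the gradient of `F|M` -/
noncomputable def gradM (M : Set E) (F : E → ℝ) (x : E) : E := PT M x (grad F x)

/-- the Hessian of `F|M` -/
noncomputable def hessM (M : Set E) (F : E → ℝ) (x : E) : E →L[ℝ] E :=
  (PT M x).comp ((fderiv ℝ (grad F) x).comp (PT M x)) - ⟪grad F x, nu M x⟫ • sff M x

/-- the unit conormal of the level curves of `F|M` -/
noncomputable def conM (M : Set E) (F : E → ℝ) (x : E) : E := ‖gradM M F x‖⁻¹ • gradM M F x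

/-- `|∇_M F|` times the geodesic curvature of the level curve as boundary of `{F ≥ c}` -/
noncomputable def kterm (M : Set E) (F : E → ℝ) (x : E) : ℝ :=
  -(tr (hessM M F x) - ⟪hessM M F x (conM M F x), conM M F x⟫)

/-- the divergence of an ambient vector field along `M` -/
noncomputable def divM (M : Set E) (X : E → E) (x : E) : ℝ := tr ((PT M x).comp (fderiv ℝ X x))

/-- the averaged Gauss-Bonnet integral, for the normalised area -/
noncomputable def GB (M : Set E3) (F : E3 → ℝ) (η : ℝ → ℝ) : ℝ :=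
  ∫ x in M, (η (F x) * Kg M x + deriv η (F x) * kterm M F x) ∂(μHE[2] : Measure E3)

/-! ### the projection `perp` -/

lemma perp_apply (n v : E) : perp n v = v - ⟪n, v⟫ • n := by simp [perp]

lemma perp_neg (n : E) : perp (-n) = perp n := by
  ext v; simp [perp_apply]

lemma perp_smul_sign {σ : ℝ} (hσ : σ * σ = 1) (n : E) : perp (σ • n) = perp n := by
  ext v
  rw [perp_apply, perp_apply, real_inner_smul_left, smul_smul, mul_right_comm, hσ, one_mul]

lemma inner_perp_left (n v u : E) : ⟪perp n v, u⟫ = ⟪v, perp n u⟫ := by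
  rw [perp_apply, perp_apply, inner_sub_left, inner_sub_right, real_inner_smul_left,
    real_inner_smul_right, real_inner_comm v n]
  ring

lemma perp_self {n : E} (hn : ‖n‖ = 1) : perp n n = 0 := by
  rw [perp_apply, real_inner_self_eq_norm_sq, hn]; simp

lemma inner_perp {n : E} (hn : ‖n‖ = 1) (v : E) : ⟪n, perp n v⟫ = 0 := by
  rw [← inner_perp_left, perp_self hn, inner_zero_left]

lemma perp_of_inner {n v : E} (h : ⟪n, v⟫ = 0) : perp n v = v := by
  rw [perp_apply, h]; simp

lemma perp_perp {n : E} (hn : ‖n‖ = 1) (v : E) : perp n (perp n v) = perp n v :=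
  perp_of_inner (inner_perp hn v)

lemma perp_comp_perp {n : E} (hn : ‖n‖ = 1) : (perp n).comp (perp n) = perp n := by
  ext v; exact perp_perp hn v

lemma proj_eq_perp {n : E} (hn : ‖n‖ = 1) : P214.proj (ℝ ∙ n)ᗮ = perp n := by
  ext v
  unfold P214.proj
  refine Submodule.eq_starProjection_of_mem_of_inner_eq_zero ?_ ?_
  · rw [Submodule.mem_orthogonal_singleton_iff_inner_right]
    exact inner_perp hn v
  · intro u hu
    rw [Submodule.mem_orthogonal_singleton_iff_inner_right] at hu
    rw [perp_apply, sub_sub_cancel, real_inner_smul_left, hu, mul_zero]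

lemma norm_perp_apply_le {n : E} (hn : ‖n‖ = 1) (v : E) : ‖perp n v‖ ≤ ‖v‖ := by
  rw [← proj_eq_perp hn]; exact norm_proj_apply_le _ _

lemma norm_perp_le {n : E} (hn : ‖n‖ = 1) : ‖perp n‖ ≤ 1 :=
  ContinuousLinearMap.opNorm_le_bound _ zero_le_one fun v => by
    rw [one_mul]; exact norm_perp_apply_le hn v

lemma norm_perp_sq {n : E} (hn : ‖n‖ = 1) (v : E) : ‖perp n v‖ ^ 2 = ‖v‖ ^ 2 - ⟪n, v⟫ ^ 2 := by
  rw [perp_apply, norm_sub_sq_real, real_inner_smul_right, norm_smul, hn, real_inner_comm n v,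
    mul_one, Real.norm_eq_abs, sq_abs]
  ring

lemma tr_perp_comp (n : E) (A : E →L[ℝ] E) : tr ((perp n).comp A) = tr A - ⟪n, A n⟫ := by
  unfold perp
  rw [ContinuousLinearMap.sub_comp, tr_sub, ContinuousLinearMap.id_comp, tr_comm,
    tr_comp_smulRight]
  rfl

lemma contDiff_perp {k : WithTop ℕ∞} : ContDiff ℝ k (perp : E → E →L[ℝ] E) := by
  unfold perp
  refine contDiff_const.sub ?_
  exact ((innerSL ℝ : E →L[ℝ] E →L[ℝ] ℝ).contDiff).smulRight contDiff_id

/-! ### formulas for a function `w` -/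

lemma contDiff_grad_top {f : E → ℝ} (hf : ContDiff ℝ ∞ f) : ContDiff ℝ ∞ (grad f) := by
  rw [grad_eq]
  exact (riesz E).contDiff.comp (hf.fderiv_right (m := ∞) (by simp))

lemma contDiff_hess_top {f : E → ℝ} (hf : ContDiff ℝ ∞ f) : ContDiff ℝ ∞ (fderiv ℝ (grad f)) :=
  (contDiff_grad_top hf).fderiv_right (m := ∞) (by simp)

lemma contDiff_two {F : Type*} [NormedAddCommGroup F] [NormedSpace ℝ F] {f : E → F}
    (hf : ContDiff ℝ ∞ f) : ContDiff ℝ 2 f :=
  hf.of_le (show ((2 : ℕ∞) : WithTop ℕ∞) ≤ ((⊤ : ℕ∞) : WithTop ℕ∞) from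
    WithTop.coe_le_coe.2 le_top)

lemma contDiff_one' {F : Type*} [NormedAddCommGroup F] [NormedSpace ℝ F] {f : E → F}
    (hf : ContDiff ℝ ∞ f) : ContDiff ℝ 1 f := hf.of_le (by exact_mod_cast le_top)

variable {w w' : E → ℝ} {x : E}

lemma norm_nuW (h : grad w x ≠ 0) : ‖nuW w x‖ = 1 := by
  unfold nuW
  rw [norm_smul, norm_inv, norm_norm, inv_mul_cancel₀ (norm_ne_zero_iff.2 h)]

lemma grad_eq_smul_nuW (w : E → ℝ) (x : E) : grad w x = ‖grad w x‖ • nuW w x := by
  unfold nuW
  by_cases h : grad w x = 0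
  · simp [h]
  · rw [smul_smul, mul_inv_cancel₀ (norm_ne_zero_iff.2 h), one_smul]

lemma inner_nuW_grad (h : grad w x ≠ 0) : ⟪nuW w x, grad w x⟫ = ‖grad w x‖ := by
  unfold nuW
  rw [real_inner_smul_left, real_inner_self_eq_norm_sq]
  field_simp [norm_ne_zero_iff.2 h]

lemma PW_grad (h : grad w x ≠ 0) : PW w x (grad w x) = 0 := by
  rw [PW, grad_eq_smul_nuW w x, map_smul, perp_self (norm_nuW h), smul_zero]

lemma PW_PW (h : grad w x ≠ 0) (v : E) : PW w x (PW w x v) = PW w x v := perp_perp (norm_nuW h) v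

lemma inner_grad_PW (h : grad w x ≠ 0) (v : E) : ⟪grad w x, PW w x v⟫ = 0 := by
  rw [PW, ← inner_perp_left, ← PW, PW_grad h, inner_zero_left]

lemma PW_of_inner {v : E} (h : ⟪grad w x, v⟫ = 0) : PW w x v = v := by
  refine perp_of_inner ?_
  rw [nuW, real_inner_smul_left, h, mul_zero]

lemma contDiffAt_norm_grad (hw : ContDiff ℝ ∞ w) (h : grad w x ≠ 0) :
    ContDiffAt ℝ ∞ (fun y => ‖grad w y‖) x := (contDiff_grad_top hw).contDiffAt.norm ℝ h

lemma contDiffAt_nuW (hw : ContDiff ℝ ∞ w) (h : grad w x ≠ 0) : ContDiffAt ℝ ∞ (nuW w) x :=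
  ((contDiffAt_norm_grad hw h).inv (norm_ne_zero_iff.2 h)).smul (contDiff_grad_top hw).contDiffAt

lemma contDiffAt_PW (hw : ContDiff ℝ ∞ w) (h : grad w x ≠ 0) : ContDiffAt ℝ ∞ (PW w) x :=
  contDiff_perp.contDiffAt.comp x (contDiffAt_nuW hw h)

lemma contDiffAt_AW (hw : ContDiff ℝ ∞ w) (h : grad w x ≠ 0) : ContDiffAt ℝ ∞ (AW w) x :=
  ((contDiffAt_norm_grad hw h).inv (norm_ne_zero_iff.2 h)).smul
    ((contDiffAt_PW hw h).clm_comp ((contDiff_hess_top hw).contDiffAt.clm_comp (contDiffAt_PW hw h)))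

/-- the derivative of the unit normal -/
lemma hasFDerivAt_nuW (hw : ContDiff ℝ ∞ w) (h : grad w x ≠ 0) :
    HasFDerivAt (nuW w) (‖grad w x‖⁻¹ • (PW w x).comp (fderiv ℝ (grad w) x)) x := by
  have hg : HasFDerivAt (grad w) (fderiv ℝ (grad w) x) x :=
    ((contDiff_grad_top hw).differentiable (by simp) x).hasFDerivAt
  have hn : HasFDerivAt (fun y => ‖grad w y‖) (fderiv ℝ (fun y => ‖grad w y‖) x) x :=
    ((contDiffAt_norm_grad hw h).differentiableAt (by simp)).hasFDerivAt
  have hn0 : ‖grad w x‖ ≠ 0 := norm_ne_zero_iff.2 h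
  have h1 := hg.norm_sq
  have h2 := hn.pow 2
  have h3 : ∀ v, fderiv ℝ (fun y => ‖grad w y‖) x v = ⟪nuW w x, fderiv ℝ (grad w) x v⟫ := by
    intro v
    have h4 := congrArg (fun L : E →L[ℝ] ℝ => L v) (h1.unique h2)
    simp only [smul_apply, ContinuousLinearMap.comp_apply, innerSL_apply_apply,
      smul_eq_mul, nsmul_eq_mul, Nat.cast_ofNat, Nat.add_one_sub_one, pow_one] at h4
    rw [nuW, real_inner_smul_left]
    field_simp
    linarith
  have h5 := ((hasDerivAt_inv hn0).comp_hasFDerivAt x hn).smul hg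
  refine h5.congr_fderiv ?_
  ext v
  simp only [Function.comp_apply, add_apply, smul_apply,
    ContinuousLinearMap.smulRight_apply, ContinuousLinearMap.comp_apply, h3, PW, perp_apply,
    smul_eq_mul]
  rw [smul_sub, smul_smul]
  conv_lhs => rw [grad_eq_smul_nuW w x, smul_smul, ← grad_eq_smul_nuW w x]
  rw [sub_eq_add_neg, ← neg_smul]
  congr 2
  field_simp

lemma AW_eq (hw : ContDiff ℝ ∞ w) (h : grad w x ≠ 0) :
    AW w x = (fderiv ℝ (nuW w) x).comp (PW w x) := by
  rw [(hasFDerivAt_nuW hw h).fderiv, AW, ContinuousLinearMap.smul_comp,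
    ContinuousLinearMap.comp_assoc]

lemma PW_AW (h : grad w x ≠ 0) (v : E) : PW w x (AW w x v) = AW w x v := by
  simp only [AW, smul_apply, ContinuousLinearMap.comp_apply, map_smul, PW_PW h]

lemma AW_PW (h : grad w x ≠ 0) (v : E) : AW w x (PW w x v) = AW w x v := by
  simp only [AW, smul_apply, ContinuousLinearMap.comp_apply, PW_PW h]

lemma AW_symm (hw : ContDiff ℝ ∞ w) (x u v : E) : ⟪AW w x u, v⟫ = ⟪u, AW w x v⟫ := by
  simp only [AW, smul_apply, ContinuousLinearMap.comp_apply,
    real_inner_smul_left, real_inner_smul_right, PW]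
  rw [inner_perp_left, hess_symm (contDiff_two hw), inner_perp_left]

/-- the trace of the shape operator is the tangential divergence of the normal -/
lemma tr_AW (hw : ContDiff ℝ ∞ w) (h : grad w x ≠ 0) :
    tr (AW w x) = tr ((PW w x).comp (fderiv ℝ (nuW w) x)) := by
  rw [AW_eq hw h, tr_comm]

end Vale.Agent.P218N.H
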