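import Vale.Agent.P218N.H.Basic
import Vale.Agent.P218GA.Jac

/-! Frames, graph charts of a surface over any transversal direction, and the area formula. -/

open MeasureTheory Set Filter Topology Metric
open scoped NNReal RealInnerProductSpace ContDiff

namespace Vale.Agent.P218N.H

open Vale.Agent.P218.H313
open Vale.Agent.P218GA (cH cH_pos cH_pos')

set_option linter.unusedSectionVars false
set_option linter.unusedVariables false

/-- Euclidean space of dimension `m` -/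
abbrev Em (m : ℕ) := EuclideanSpace ℝ (Fin m)

variable {E : Type*} [NormedAddCommGroup E] [InnerProductSpace ℝ E] [FiniteDimensional ℝ E]
variable {m : ℕ}

/-- an orthogonal splitting `E = ℝ^m ⊕ ℝ n` -/
structure Frame (m : ℕ) (E : Type*) [NormedAddCommGroup E] [InnerProductSpace ℝ E] where
  /-- the unit normal -/
  n : E
  /-- the isometric embedding of the horizontal plane -/
  ι : Em m →L[ℝ] E
  /-- the horizontal coordinates -/
  π : E →L[ℝ] Em m
  norm_n : ‖n‖ = 1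
  adj : ∀ y v, ⟪ι y, v⟫ = ⟪y, π v⟫
  π_ι : ∀ y, π (ι y) = y
  ι_π : ∀ v, ι (π v) = v - ⟪n, v⟫ • n

theorem exists_frame (hE : Module.finrank ℝ E = m + 1) {n : E} (hn : ‖n‖ = 1) :
    ∃ f : Frame m E, f.n = n := by
  have h0 : n ≠ 0 := by rintro rfl; simp at hn
  have : Fact (Module.finrank ℝ E = m + 1) := ⟨hE⟩
  have hT : Module.finrank ℝ (ℝ ∙ n)ᗮ = m := Submodule.finrank_orthogonal_span_singleton h0
  let b : OrthonormalBasis (Fin m) ℝ (ℝ ∙ n)ᗮ :=
    (stdOrthonormalBasis ℝ (ℝ ∙ n)ᗮ).reindex (finCongr hT)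
  let e : (ℝ ∙ n)ᗮ ≃L[ℝ] Em m := b.repr.toContinuousLinearEquiv
  have hp : ∀ v, ((ℝ ∙ n)ᗮ.orthogonalProjectionOnto v : E) = v - ⟪n, v⟫ • n := fun v => by
    rw [← perp_apply, ← proj_eq_perp hn]; rfl
  refine ⟨⟨n, (ℝ ∙ n)ᗮ.subtypeL.comp (e.symm : Em m →L[ℝ] (ℝ ∙ n)ᗮ),
    (e : (ℝ ∙ n)ᗮ →L[ℝ] Em m).comp (ℝ ∙ n)ᗮ.orthogonalProjectionOnto, hn, fun y v => ?_, fun y => ?_,
    fun v => ?_⟩, rfl⟩
  · change ⟪((b.repr.symm y : (ℝ ∙ n)ᗮ) : E), v⟫ = ⟪y, b.repr ((ℝ ∙ n)ᗮ.orthogonalProjectionOnto v)⟫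
    rw [← b.repr.symm.inner_map_map, LinearIsometryEquiv.symm_apply_apply,
      Submodule.inner_orthogonalProjectionOnto_eq_of_mem_left]
  · change b.repr ((ℝ ∙ n)ᗮ.orthogonalProjectionOnto ((b.repr.symm y : (ℝ ∙ n)ᗮ) : E)) = y
    rw [Submodule.orthogonalProjectionOnto_mem_subspace_eq_self, LinearIsometryEquiv.apply_symm_apply]
  · change ((b.repr.symm (b.repr ((ℝ ∙ n)ᗮ.orthogonalProjectionOnto v)) : (ℝ ∙ n)ᗮ) : E) = _
    rw [LinearIsometryEquiv.symm_apply_apply, hp]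

namespace Frame

variable (f : Frame m E)

lemma inner_nn : ⟪f.n, f.n⟫ = 1 := by rw [real_inner_self_eq_norm_sq, f.norm_n]; norm_num

lemma ι_π_perp (v : E) : f.ι (f.π v) = perp f.n v := by rw [f.ι_π, perp_apply]

lemma inner_ι (y z : Em m) : ⟪f.ι y, f.ι z⟫ = ⟪y, z⟫ := by rw [f.adj, f.π_ι]

lemma norm_ι (y : Em m) : ‖f.ι y‖ = ‖y‖ := by
  have := f.inner_ι y y
  rw [real_inner_self_eq_norm_sq, real_inner_self_eq_norm_sq] at this
  exact (sq_eq_sq₀ (norm_nonneg _) (norm_nonneg _)).1 this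

lemma π_n : f.π f.n = 0 := by
  rw [← norm_eq_zero, ← f.norm_ι, f.ι_π, f.inner_nn, one_smul, sub_self, norm_zero]

lemma inner_ι_n (y : Em m) : ⟪f.ι y, f.n⟫ = 0 := by rw [f.adj, f.π_n, inner_zero_right]

lemma inner_n_ι (y : Em m) : ⟪f.n, f.ι y⟫ = 0 := by rw [real_inner_comm, f.inner_ι_n]

lemma decomp (v : E) : v = f.ι (f.π v) + ⟪f.n, v⟫ • f.n := by rw [f.ι_π]; abel

lemma norm_sq (y : Em m) (t : ℝ) : ‖f.ι y + t • f.n‖ ^ 2 = ‖y‖ ^ 2 + t ^ 2 := by
  rw [norm_add_sq_real, real_inner_smul_right, f.inner_ι_n, f.norm_ι, norm_smul, f.norm_n]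
  simp

lemma norm_π_le (v : E) : ‖f.π v‖ ≤ ‖v‖ := by
  rw [← f.norm_ι, f.ι_π_perp]; exact norm_perp_apply_le f.norm_n v

lemma tr_comm' (A : Em m →L[ℝ] E) (B : E →L[ℝ] Em m) : tr (A.comp B) = tr (B.comp A) :=
  LinearMap.trace_comp_comm' (B : E →ₗ[ℝ] Em m) (A : Em m →ₗ[ℝ] E)

lemma tr_eq (A : E →L[ℝ] E) : tr (f.π.comp (A.comp f.ι)) = tr A - ⟪f.n, A f.n⟫ := by
  rw [← tr_perp_comp]
  have h1 : perp f.n = f.ι.comp f.π := by ext v; simp [f.ι_π_perp]
  rw [h1, tr_comm (f.ι.comp f.π), ← ContinuousLinearMap.comp_assoc A, tr_comm']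

/-- the cylinder of radius `r` and height `h` about `p` -/
def cyl (p : E) (r h : ℝ) : Set E := {x | ‖f.π (x - p)‖ < r ∧ |⟪f.n, x - p⟫| < h}

/-- the graph map -/
noncomputable def gr (p : E) (u : Em m → ℝ) (y : Em m) : E := p + (f.ι y + u y • f.n)

/-- the defining function of the graph -/
noncomputable def gw (p : E) (u : Em m → ℝ) (x : E) : ℝ := ⟪f.n, x - p⟫ - u (f.π (x - p))

lemma isOpen_cyl (p : E) (r h : ℝ) : IsOpen (f.cyl p r h) :=
  (isOpen_lt (f := fun x => ‖f.π (x - p)‖) (by fun_prop) continuous_const).inter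
    (isOpen_lt (f := fun x => |⟪f.n, x - p⟫|) (by fun_prop) continuous_const)

lemma self_mem_cyl (p : E) {r h : ℝ} (hr : 0 < r) (hh : 0 < h) : p ∈ f.cyl p r h := by
  constructor <;> simpa

lemma cyl_subset_ball (p : E) (r h : ℝ) : f.cyl p r h ⊆ ball p (r + h) := by
  rintro x ⟨h1, h2⟩
  rw [mem_ball, dist_eq_norm, f.decomp (x - p)]
  refine (norm_add_le _ _).trans_lt ?_
  rw [f.norm_ι, norm_smul, f.norm_n, mul_one, Real.norm_eq_abs]
  linarith

lemma ball_subset_cyl (p : E) {r h s : ℝ} (hr : s ≤ r) (hh : s ≤ h) : ball p s ⊆ f.cyl p r h := by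
  intro x hx
  rw [mem_ball, dist_eq_norm] at hx
  refine ⟨((f.norm_π_le _).trans_lt hx).trans_le hr, ?_⟩
  have := abs_real_inner_le_norm f.n (x - p)
  rw [f.norm_n, one_mul] at this
  linarith

lemma π_gr (p : E) (u : Em m → ℝ) (y : Em m) : f.π (f.gr p u y - p) = y := by
  rw [gr, add_sub_cancel_left, map_add, map_smul, f.π_ι, f.π_n, smul_zero, add_zero]

lemma inner_gr (p : E) (u : Em m → ℝ) (y : Em m) : ⟪f.n, f.gr p u y - p⟫ = u y := by
  rw [gr, add_sub_cancel_left, inner_add_right, f.inner_n_ι, real_inner_smul_right, f.inner_nn]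
  ring

lemma gw_gr (p : E) (u : Em m → ℝ) (y : Em m) : f.gw p u (f.gr p u y) = 0 := by
  rw [gw, f.π_gr, f.inner_gr, sub_self]

lemma gr_π {p x : E} {u : Em m → ℝ} (h : f.gw p u x = 0) : f.gr p u (f.π (x - p)) = x := by
  rw [gw, sub_eq_zero] at h
  rw [gr, ← h, ← f.decomp, add_sub_cancel]

lemma gr_injective (p : E) (u : Em m → ℝ) : Function.Injective (f.gr p u) := fun y z h => by
  rw [← f.π_gr p u y, h, f.π_gr]

lemma contDiff_gr {k : WithTop ℕ∞} (p : E) {u : Em m → ℝ} (hu : ContDiff ℝ k u) :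
    ContDiff ℝ k (f.gr p u) :=
  contDiff_const.add (f.ι.contDiff.add (hu.smul contDiff_const))

lemma contDiff_gw {k : WithTop ℕ∞} (p : E) {u : Em m → ℝ} (hu : ContDiff ℝ k u) :
    ContDiff ℝ k (f.gw p u) :=
  (contDiff_const.inner ℝ (contDiff_id.sub contDiff_const)).sub
    (hu.comp (f.π.contDiff.comp (contDiff_id.sub contDiff_const)))

/-- the derivative of the graph map -/
noncomputable def dgr (u : Em m → ℝ) (y : Em m) : Em m →L[ℝ] E :=
  f.ι + (fderiv ℝ u y).smulRight f.n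

lemma dgr_apply (u : Em m → ℝ) (y v : Em m) : f.dgr u y v = f.ι v + ⟪grad u y, v⟫ • f.n := by
  rw [inner_grad]; rfl

lemma hasFDerivAt_gr (p : E) {u : Em m → ℝ} {y : Em m} (hu : DifferentiableAt ℝ u y) :
    HasFDerivAt (f.gr p u) (f.dgr u y) y :=
  (f.ι.hasFDerivAt.add (hu.hasFDerivAt.smul_const f.n)).const_add p

lemma π_dgr (u : Em m → ℝ) (y v : Em m) : f.π (f.dgr u y v) = v := by
  rw [dgr_apply, map_add, map_smul, f.π_ι, f.π_n, smul_zero, add_zero]

lemma dgr_injective (u : Em m → ℝ) (y : Em m) : Function.Injective (f.dgr u y) := fun v z h => by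
  rw [← f.π_dgr u y v, h, f.π_dgr]

lemma grad_gw (p : E) {u : Em m → ℝ} {x : E} (hu : DifferentiableAt ℝ u (f.π (x - p))) :
    grad (f.gw p u) x = f.n - f.ι (grad u (f.π (x - p))) := by
  refine grad_unique fun v => ?_
  have h1 : HasFDerivAt (fun z : E => z - p) (ContinuousLinearMap.id ℝ E) x :=
    (hasFDerivAt_id x).sub_const p
  have h2 := (innerSL ℝ f.n).hasFDerivAt.comp x h1
  have h3 := hu.hasFDerivAt.comp x (f.π.hasFDerivAt.comp x h1)
  have h4 : HasFDerivAt (f.gw p u) _ x := h2.sub h3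
  rw [h4.fderiv, inner_sub_left, f.adj, inner_grad]
  rfl

lemma norm_N_sq (a : Em m) : ‖f.n - f.ι a‖ ^ 2 = 1 + ‖a‖ ^ 2 := by
  have := f.norm_sq (-a) 1
  rw [map_neg, one_smul, norm_neg, neg_add_eq_sub] at this
  rw [this]; ring

lemma norm_N (a : Em m) : ‖f.n - f.ι a‖ = √(1 + ‖a‖ ^ 2) := by
  rw [← f.norm_N_sq, Real.sqrt_sq (norm_nonneg _)]

lemma N_ne (a : Em m) : f.n - f.ι a ≠ 0 := by
  rw [← norm_ne_zero_iff, f.norm_N]; positivity

lemma normDet_dgr (u : Em m → ℝ) (y : Em m) :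
    (f.dgr u y : Em m →ₗ[ℝ] E).normDet = √(1 + ‖grad u y‖ ^ 2) := by
  rw [P218GA.normDet_eq_sqrt _ (EuclideanSpace.basisFun (Fin m) ℝ)]
  congr 1
  have : (Matrix.gram ℝ fun i => (f.dgr u y : Em m →ₗ[ℝ] E) (EuclideanSpace.basisFun (Fin m) ℝ i))
      = 1 + Matrix.replicateCol Unit (grad u y).ofLp * Matrix.replicateRow Unit (grad u y).ofLp := by
    ext i j
    simp only [Matrix.gram_apply, ContinuousLinearMap.coe_coe, dgr_apply, inner_add_left,
      inner_add_right, real_inner_smul_left, real_inner_smul_right, f.inner_ι, f.inner_ι_n,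
      f.inner_n_ι, f.inner_nn, Matrix.add_apply, Matrix.mul_apply, Matrix.replicateCol_apply,
      Matrix.replicateRow_apply, Finset.univ_unique, Finset.sum_singleton,
      EuclideanSpace.basisFun_apply, EuclideanSpace.inner_single_right, Matrix.one_apply]
    by_cases h : i = j
    · subst h; simp
    · simp [h, Ne.symm h, mul_comm]
  rw [this, Matrix.det_one_add_replicateCol_mul_replicateRow, EuclideanSpace.real_norm_sq_eq]
  simp [dotProduct, sq]

end Frame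

/-- in the cylinder `f.cyl p r h` the set `M` is the graph of the smooth function `u` -/
structure GChart (M : Set E) (f : Frame m E) (p : E) (r h : ℝ) (u : Em m → ℝ) : Prop where
  r_pos : 0 < r
  h_pos : 0 < h
  smooth : ContDiff ℝ ∞ u
  bd : ∀ y, ‖y‖ < r → |u y| < h
  mem_iff : ∀ x ∈ f.cyl p r h, x ∈ M ↔ f.gw p u x = 0

namespace GChart

variable {M : Set E} {f : Frame m E} {p : E} {r h : ℝ} {u : Em m → ℝ}

lemma mono (c : GChart M f p r h u) {r' h' : ℝ} (hr : 0 < r') (hh : 0 < h') (hr' : r' ≤ r)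
    (hh' : h' ≤ h) (hb : ∀ y, ‖y‖ < r' → |u y| < h') : GChart M f p r' h' u :=
  ⟨hr, hh, c.smooth, hb, fun x hx => c.mem_iff x ⟨hx.1.trans_le hr', hx.2.trans_le hh'⟩⟩

lemma diff (c : GChart M f p r h u) (y : Em m) : DifferentiableAt ℝ u y :=
  c.smooth.differentiable (by simp) y

lemma locDef (c : GChart M f p r h u) : LocDef M (f.cyl p r h) (f.gw p u) :=
  ⟨f.isOpen_cyl p r h, f.contDiff_gw p c.smooth,
    fun x _ => by rw [f.grad_gw p (c.diff _)]; exact f.N_ne _, c.mem_iff⟩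

lemma gr_mem_cyl (c : GChart M f p r h u) {y : Em m} (hy : ‖y‖ < r) : f.gr p u y ∈ f.cyl p r h :=
  ⟨by rwa [f.π_gr], by rw [f.inner_gr]; exact c.bd y hy⟩

lemma gr_mem (c : GChart M f p r h u) {y : Em m} (hy : ‖y‖ < r) : f.gr p u y ∈ M :=
  (c.mem_iff _ (c.gr_mem_cyl hy)).2 (f.gw_gr p u y)

lemma image (c : GChart M f p r h u) : f.gr p u '' ball 0 r = M ∩ f.cyl p r h := by
  ext x
  constructor
  · rintro ⟨y, hy, rfl⟩
    rw [mem_ball_zero_iff] at hy
    exact ⟨c.gr_mem hy, c.gr_mem_cyl hy⟩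
  · rintro ⟨h1, h2⟩
    exact ⟨f.π (x - p), mem_ball_zero_iff.2 h2.1, f.gr_π ((c.mem_iff x h2).1 h1)⟩

lemma grad_gw_gr (c : GChart M f p r h u) (y : Em m) :
    grad (f.gw p u) (f.gr p u y) = f.n - f.ι (grad u y) := by
  rw [f.grad_gw p (c.diff _), f.π_gr]

lemma PT_gr (c : GChart M f p r h u) {y : Em m} (hy : ‖y‖ < r) :
    PT M (f.gr p u y) = perp ((√(1 + ‖grad u y‖ ^ 2))⁻¹ • (f.n - f.ι (grad u y))) := by
  rw [c.locDef.PT_eq (c.gr_mem_cyl hy) (c.gr_mem hy), PW, nuW, c.grad_gw_gr, f.norm_N]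

end GChart

/-- **Graph charts** over any direction transversal to `M` at `p`. -/
theorem LocDef.exists_gchart {M U : Set E} {w : E → ℝ} {p : E} (hw : LocDef M U w) (hp : p ∈ U)
    (hM : p ∈ M) (f : Frame m E) (ht : ⟪grad w p, f.n⟫ ≠ 0) {O : Set E} (hO : O ∈ 𝓝 p) :
    ∃ (u : Em m → ℝ) (r h : ℝ), GChart M f p r h u ∧ u 0 = 0 ∧ f.cyl p r h ⊆ O := by
  have := FiniteDimensional.complete ℝ E
  set G : E → E := fun x => perp f.n (x - p) + w x • f.n with hG
  have hGs : ContDiff ℝ ∞ G :=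
    ((perp f.n).contDiff.comp (contDiff_id.sub contDiff_const)).add (hw.smooth.smul contDiff_const)
  have hGn : ∀ x, ⟪f.n, G x⟫ = w x := fun x => by
    rw [hG]
    simp only [inner_add_right, inner_perp f.norm_n, real_inner_smul_right, f.inner_nn]
    ring
  have hGπ : ∀ x, f.π (G x) = f.π (x - p) := fun x => by
    rw [hG]
    simp only [map_add, map_smul, f.π_n, smul_zero, add_zero, ← f.ι_π_perp, f.π_ι]
  have hd : HasFDerivAt G (perp f.n + (fderiv ℝ w p).smulRight f.n) p := by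
    have h1 : HasFDerivAt (fun z => perp f.n (z - p)) (perp f.n) p := by
      have := (perp f.n).hasFDerivAt.comp p ((hasFDerivAt_id p).sub_const p)
      rwa [ContinuousLinearMap.comp_id] at this
    exact h1.add ((hw.smooth.differentiable (by simp) p).hasFDerivAt.smul_const _)
  have hinj : Function.Injective (fderiv ℝ G p) := by
    rw [hd.fderiv, injective_iff_map_eq_zero]
    intro v hv
    have h1 : perp f.n v + fderiv ℝ w p v • f.n = 0 := hv
    have h2 := congrArg (fun z => ⟪f.n, z⟫) h1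
    simp only [inner_add_right, inner_perp f.norm_n, real_inner_smul_right, f.inner_nn,
      inner_zero_right] at h2
    have h3 : fderiv ℝ w p v = 0 := by linarith
    rw [h3, zero_smul, add_zero, perp_apply, sub_eq_zero] at h1
    rw [← inner_grad, h1, real_inner_smul_right] at h3
    rw [h1, (mul_eq_zero.1 h3).resolve_right ht, zero_smul]
  obtain ⟨O', hO1, hO2, hO3⟩ := _root_.mem_nhds_iff.1 hO
  obtain ⟨φ, h1, h2, h3, h4, -⟩ := ift (hw.isOpen.inter hO2) (fun z _ => hGs.contDiffAt) ⟨hp, hO3⟩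
    ⟨hinj, (LinearMap.injective_iff_surjective (f := (fderiv ℝ G p : E →ₗ[ℝ] E))).1 hinj⟩
  have hφp : φ p = 0 := by rw [h3, hG]; simp [hw.zero hp hM]
  have h0 : (0 : E) ∈ φ.target := hφp ▸ φ.map_source h1
  have hs0 : φ.symm 0 = p := by rw [← hφp, φ.left_inv h1]
  have hev : ∀ᶠ y in 𝓝 (0 : Em m), f.ι y ∈ φ.target :=
    f.ι.continuous.continuousAt.eventually (φ.open_target.mem_nhds (by simpa using h0))
  set u₀ : Em m → ℝ := fun y => ⟪f.n, φ.symm (f.ι y) - p⟫ with hu₀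
  obtain ⟨u, hu, huu⟩ := exists_global (k := ⊤) (f := u₀) (p := 0) (hev.mono fun y hy =>
    contDiffAt_const.inner ℝ (((h4 _ hy).comp y f.ι.contDiff.contDiffAt).sub contDiffAt_const))
  have hu0 : u 0 = 0 := by rw [huu.self_of_nhds, hu₀]; simp [hs0]
  obtain ⟨s, hs, hsb⟩ := Metric.isOpen_iff.1 φ.open_source p h1
  have hsm : ∀ᶠ y in 𝓝 (0 : Em m), |u y| < s / 2 :=
    hu.continuous.abs.continuousAt.eventually (gt_mem_nhds (by simp [hu0, hs]))
  obtain ⟨r, hr, hrb⟩ := Metric.eventually_nhds_iff_ball.1 (hev.and (hsm.and huu))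
  have hcyl : f.cyl p (min r (s / 2)) (s / 2) ⊆ φ.source := by
    refine (f.cyl_subset_ball p _ _).trans ((ball_subset_ball ?_).trans hsb)
    have := min_le_right r (s / 2)
    linarith
  refine ⟨u, min r (s / 2), s / 2, ⟨lt_min hr (half_pos hs), half_pos hs, hu, fun y hy =>
    (hrb y (mem_ball_zero_iff.2 (hy.trans_le (min_le_left _ _)))).2.1, fun x hx => ?_⟩, hu0,
    fun x hx => hO1 (h2 (hcyl hx)).2⟩
  obtain ⟨h5, -, h6⟩ := hrb _ (mem_ball_zero_iff.2 (hx.1.trans_le (min_le_left _ _)))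
  have hxs := hcyl hx
  rw [hw.mem_iff x (h2 hxs).1, Frame.gw, h6, hu₀, sub_eq_zero]
  constructor
  · intro h7
    have h8 : φ x = f.ι (f.π (x - p)) := by rw [h3, hG]; simp [h7, f.ι_π_perp]
    simp only [← h8, φ.left_inv hxs]
  · intro h7
    set z := φ.symm (f.ι (f.π (x - p))) with hz
    have h8 : G z = f.ι (f.π (x - p)) := by rw [← h3, hz, φ.right_inv h5]
    have h9 : f.π (z - p) = f.π (x - p) := by rw [← hGπ, h8, f.π_ι]
    have h10 : x - p = z - p := by
      rw [f.decomp (x - p), f.decomp (z - p), h9]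
      exact congrArg (fun t : ℝ => f.ι (f.π (x - p)) + t • f.n) h7
    rw [sub_left_inj.1 h10, ← hGn, h8, f.inner_n_ι]

theorem Surf.exists_gchart {M : Set E} (hM : Surf M) {p : E} (hp : p ∈ M) (f : Frame m E)
    (ht : ⟪nu M p, f.n⟫ ≠ 0) {O : Set E} (hO : O ∈ 𝓝 p) :
    ∃ (u : Em m → ℝ) (r h : ℝ), GChart M f p r h u ∧ u 0 = 0 ∧ f.cyl p r h ⊆ O := by
  obtain ⟨U, h1, h2⟩ := hM.dfn_spec hp
  refine h2.exists_gchart h1 hp f (fun h => ht ?_) hO
  rw [nu, nuW, real_inner_smul_left, h, mul_zero]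

/-- **Graph charts** over the tangent plane. -/
theorem Surf.exists_tchart (hE : Module.finrank ℝ E = m + 1) {M : Set E} (hM : Surf M) {p : E}
    (hp : p ∈ M) {O : Set E} (hO : O ∈ 𝓝 p) :
    ∃ (f : Frame m E) (u : Em m → ℝ) (r h : ℝ), f.n = nu M p ∧ GChart M f p r h u ∧ u 0 = 0 ∧
      grad u 0 = 0 ∧ f.cyl p r h ⊆ O := by
  obtain ⟨f, hf⟩ := exists_frame hE (hM.norm_nu hp)
  obtain ⟨u, r, h, c, h1, h2⟩ := hM.exists_gchart hp f (by rw [← hf, f.inner_nn]; simp) hO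
  refine ⟨f, u, r, h, hf, c, h1, ?_, h2⟩
  have h4 := inner_grad_PW (c.locDef.ne p (f.self_mem_cyl p c.r_pos c.h_pos)) (f.ι (grad u 0))
  rw [← c.locDef.PT_eq (f.self_mem_cyl p c.r_pos c.h_pos) hp, PT_def, ← hf,
    perp_of_inner (f.inner_n_ι _), f.grad_gw p (c.diff _), sub_self, map_zero, inner_sub_left,
    f.inner_n_ι, f.inner_ι, zero_sub, neg_eq_zero, inner_self_eq_zero] at h4
  exact h4

/-! ### the area formula -/

section area

variable [MeasurableSpace E] [BorelSpace E] {f : Frame m E} {p : E} {u : Em m → ℝ}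
  {F : Type*} [NormedAddCommGroup F] [NormedSpace ℝ F]

/-- the area element of a graph -/
noncomputable def gJ (u : Em m → ℝ) (y : Em m) : ℝ := cH m * √(1 + ‖grad u y‖ ^ 2)

lemma gJ_pos (u : Em m → ℝ) (y : Em m) : 0 < gJ u y := mul_pos (cH_pos' m) (by positivity)

lemma continuous_gJ (hu : ContDiff ℝ 1 u) : Continuous (gJ u) := by
  have := continuous_grad hu
  unfold gJ; fun_prop

lemma jac_gr (hu : ContDiff ℝ 1 u) (y : Em m) :
    cH m * ((fderiv ℝ (f.gr p u) y : Em m →L[ℝ] E) : Em m →ₗ[ℝ] E).normDet = gJ u y := by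
  rw [(f.hasFDerivAt_gr p (hu.differentiable (by simp) y)).fderiv, f.normDet_dgr, gJ]

lemma inj_gr (hu : ContDiff ℝ 1 u) (y : Em m) : Function.Injective (fderiv ℝ (f.gr p u) y) := by
  rw [(f.hasFDerivAt_gr p (hu.differentiable (by simp) y)).fderiv]; exact f.dgr_injective u y

theorem integral_gr (hu : ContDiff ℝ 1 u) {s : Set (Em m)} (hs : MeasurableSet s) (g : E → F) :
    ∫ x in f.gr p u '' s, g x ∂μH[m] = ∫ y in s, gJ u y • g (f.gr p u y) := by
  rw [(P218GA.isJac_volume (U := Em m) (V := E) (m := m) (by simp)).integral_image isOpen_univ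
    (f.contDiff_gr p hu).contDiffOn (fun y _ => inj_gr hu y) hs (subset_univ _)
    (f.gr_injective p u).injOn]
  simp only [jac_gr hu]

theorem integrableOn_gr (hu : ContDiff ℝ 1 u) {s : Set (Em m)} (hs : MeasurableSet s) (g : E → F) :
    IntegrableOn g (f.gr p u '' s) μH[m] ↔ IntegrableOn (fun y => gJ u y • g (f.gr p u y)) s := by
  rw [(P218GA.isJac_volume (U := Em m) (V := E) (m := m) (by simp)).integrableOn_image isOpen_univ
    (f.contDiff_gr p hu).contDiffOn (fun y _ => inj_gr hu y) hs (subset_univ _)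
    (f.gr_injective p u).injOn]
  simp only [jac_gr hu]

theorem lintegral_gr (hu : ContDiff ℝ 1 u) {s : Set (Em m)} (hs : MeasurableSet s)
    (g : E → ENNReal) :
    ∫⁻ x in f.gr p u '' s, g x ∂μH[m] = ∫⁻ y in s, ENNReal.ofReal (gJ u y) * g (f.gr p u y) := by
  rw [(P218GA.isJac_volume (U := Em m) (V := E) (m := m) (by simp)).lintegral_image isOpen_univ
    (f.contDiff_gr p hu).contDiffOn (fun y _ => inj_gr hu y) hs (subset_univ _)
    (f.gr_injective p u).injOn]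
  simp only [jac_gr hu]

theorem measure_gr (hu : ContDiff ℝ 1 u) {s : Set (Em m)} (hs : MeasurableSet s) :
    μH[m] (f.gr p u '' s) = ∫⁻ y in s, ENNReal.ofReal (gJ u y) := by
  rw [(P218GA.isJac_volume (U := Em m) (V := E) (m := m) (by simp)).measure_image isOpen_univ
    (f.contDiff_gr p hu).contDiffOn (fun y _ => inj_gr hu y) hs (subset_univ _)
    (f.gr_injective p u).injOn]
  simp only [jac_gr hu]

end area

end Vale.Agent.P218N.H
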