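import Mathlib.Geometry.Manifold.MFDeriv.Basic
import Mathlib.Geometry.Manifold.Instances.Real
import Mathlib.Geometry.Manifold.ContMDiff.Basic

/-! Smooth embeddings of a surface into Euclidean space. -/

open scoped Manifold ContDiff

namespace Vale.Agent.P218N.H

/-- `X` is a smooth injective immersion of the surface `S` into `ℝ³` (a smooth embedding, if `S`
is compact). -/
structure IsEmb {S : Type} [TopologicalSpace S] [ChartedSpace (EuclideanSpace ℝ (Fin 2)) S]
    (X : S → EuclideanSpace ℝ (Fin 3)) : Prop where
  smooth : ContMDiff (𝓡 2) (𝓡 3) ∞ X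
  inj : Function.Injective X
  imm : ∀ p, Function.Injective (mfderiv (𝓡 2) (𝓡 3) X p)

end Vale.Agent.P218N.H
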